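import Vale.Agent.P141.H743.StopE
import Vale.Agent.P141.H460.AffFam
import Vale.Agent.P141.H816.FDat
import Vale.Agent.P141.H389.RealAC

/-!
# P141, line (A): the stopped part of the stack, numbers at class data

* `Msk K mu` : `mu x k a b` zero or one, larger at smaller scales; `Cm mu C` : the masked stack;
* `lin_kF`, `alive_mass` : lines of the killed companion, mass on alive squares;
* `en_cls` : energy of the masked stack at every time;
* `aff_cls` : its mass on affected nodes, times `k` and `k + 1`, all scales;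
-/

namespace Vale.Agent.P141.H743

open Finset Matrix
open Vale.Agent.P141.PL (Pt iv ix cb cx mem_iv mem_cb card_iv card_cb ix_ix ix_zero)
open Vale.Agent.P141.PL.H315 (Tri A2)
open Vale.Agent.P141.H48 (BSl sst)
open Vale.Agent.P141.H460 (LPack GPack QPack Lin iv_succ nsq_nonneg pack1 pack2 nA1)
open Vale.Agent.P141.H677 (kF cP)
open Vale.Agent.P141.H677.Sk (FamV)
open Vale.Agent.P141.H103 (GW QW)

noncomputable section

open scoped Classical

variable {ι : Type} [Fintype ι] [DecidableEq ι]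

/-! ### Masks -/

/-- a mask: zero or one, larger at smaller scales -/
structure Msk (K : ℕ) (mu : ℤ → ℕ → ℤ → ℤ → ℝ) : Prop where
  or : ∀ x k a b, mu x k a b = 0 ∨ mu x k a b = 1
  up : ∀ j k, j ≤ k → k ≤ K → ∀ x x0 z, mu x k (ix k x0) (ix k z) ≤ mu x j (ix j x0) (ix j z)

/-- the masked stack -/
def Cm (mu : ℤ → ℕ → ℤ → ℤ → ℝ) (C : FamV ι) : FamV ι :=
  fun x0 k z x => mu x k (ix k x0) (ix k z) • C x0 k z x

/-- the mask is one -/
def On (mu : ℤ → ℕ → ℤ → ℤ → ℝ) (k : ℕ) (x : Pt) : Prop :=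
  mu x.2.1 k (ix k x.1) (ix k x.2.2) = 1

theorem Msk.stp {K : ℕ} {mu : ℤ → ℕ → ℤ → ℤ → ℝ} (h : Msk K mu) :
    Stp K (fun x0 x1 x3 => mu x1 0 x0 x3 = 1) (On mu) := by
  intro k hk x hx y0 hy0
  have h1 := h.up 0 k (Nat.zero_le k) hk x.2.1 y0 x.2.2
  rw [mem_iv.1 hy0, ix_zero, ix_zero] at h1
  unfold On at hx
  rw [hx] at h1
  rcases h.or x.2.1 0 y0 x.2.2 with h2 | h2
  · rw [h2] at h1
    linarith
  · exact h2

omit [DecidableEq ι] in
theorem Cm_sq {K : ℕ} {mu : ℤ → ℕ → ℤ → ℤ → ℝ} (h : Msk K mu) (C : FamV ι) (x0 : ℤ) (k : ℕ)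
    (z x : ℤ) : Cm mu C x0 k z x ⬝ᵥ Cm mu C x0 k z x =
      if On mu k (x0, x, z) then C x0 k z x ⬝ᵥ C x0 k z x else 0 := by
  unfold Cm On
  rw [smul_dotProduct, dotProduct_smul, smul_eq_mul, smul_eq_mul]
  rcases h.or x k (ix k x0) (ix k z) with h1 | h1
  · simp [h1]
  · simp [h1]

/-- the sum of the indicator of the stopped points is the sum of the mask -/
theorem Msk.count {K : ℕ} {mu : ℤ → ℕ → ℤ → ℤ → ℝ} (h : Msk K mu) (T : Finset ℤ) (x z : ℤ) :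
    ∑ t ∈ T, ∑ x0 ∈ iv K t, (if mu x 0 x0 z = 1 then (1 : ℝ) else 0) =
      ∑ t ∈ T, ∑ x0 ∈ iv K t, mu x 0 x0 z := by
  refine sum_congr rfl fun t _ => sum_congr rfl fun x0 _ => ?_
  rcases h.or x 0 x0 z with h1 | h1
  · simp [h1]
  · simp [h1]

/-! ### The killed companion -/

theorem iv_pt' (k : ℕ) (u : ℤ) : PL.H315.iv k u = iv k (ix k u) := rfl

/-- time `min (k + b) K` at scale `k` -/
def tb (K b k : ℕ) : ℕ := min (k + b) K

/-- lines of the killed companion, times `k` and `k + 1` on the cells of scale `k` -/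
theorem lin_kF {n K : ℕ} {ez cP Λ : ℝ} {a : ℤ × ℤ → ℝ} {F : ℕ → Pt → ℝ} {Q : ℕ → Pt → Prop}
    (hF : BSl n ez cP F Q) (hK : K ≤ n) (hez : 0 ≤ ez) {b : ℕ} (hb : b ≤ 1) :
    Lin K ez (fun k => kF Λ a K F (tb K b k)) := by
  have h1 : ∀ k < n, ∀ m x y : ℤ, ∑ z ∈ iv k m, kF Λ a K F (k + 1) (z, x, y) ^ 2 ≤ ez * 2 ^ k :=
    fun k hk m x y => (sum_le_sum fun z _ => H816.kF_sq_le Λ a K F (k + 1) (z, x, y)).trans
      (hF.l0 k hk m x y)
  have h0 : ∀ k ≤ K, ∀ m x y : ℤ, ∑ z ∈ iv k m, kF Λ a K F k (z, x, y) ^ 2 ≤ ez * 2 ^ k := by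
    intro k hk m x y
    rcases k with _ | k
    · refine le_of_eq_of_le (sum_eq_zero fun z _ => ?_) (by positivity)
      unfold H677.kF
      rw [if_pos (Or.inl rfl), zero_pow two_ne_zero]
    · rw [iv_succ, pow_succ]
      have g1 := h1 k (by omega) (2 * m) x y
      have g2 := h1 k (by omega) (2 * m + 1) x y
      linarith
  intro k hk m x1 x3
  show ∑ x0 ∈ iv k m, kF Λ a K F (min (k + b) K) (x0, x1, x3) ^ 2 ≤ ez * 2 ^ k
  rcases Nat.lt_or_ge k K with h | h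
  · rcases Nat.le_one_iff_eq_zero_or_eq_one.1 hb with rfl | rfl
    · rw [show min (k + 0) K = k by omega]
      exact h0 k hk m x1 x3
    · rw [show min (k + 1) K = k + 1 by omega]
      exact h1 k (by omega) m x1 x3
  · rw [show min (k + b) K = k by omega]
    exact h0 k hk m x1 x3

/-- mass on the squares alive at the time `min (k + b) K` -/
theorem alive_mass {K k b : ℕ} {Λ s : ℝ} {a : ℤ × ℤ → ℝ} (hΛ : 0 ≤ Λ) (hs : 0 ≤ s) (hk : k ≤ K)
    (hb : b ≤ 1) {X Z x z : ℤ} (hx : ix K x = ix K X) (hz : ix K z = ix K Z)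
    (ha : A2 K a X Z ≤ s) (h : ¬ sst Λ a K (tb K b k) x z) :
    ∑ x' ∈ iv k (ix k x), ∑ z' ∈ iv k (ix k z), a (x', z') ^ 2 ≤ 4 * Λ * s * 4 ^ k := by
  have e : A2 K a x z = A2 K a X Z := H48.A2_congr' a hx hz
  have h2 : A2 k a x z =
      ((4 : ℝ) ^ k)⁻¹ * ∑ x' ∈ iv k (ix k x), ∑ z' ∈ iv k (ix k z), a (x', z') ^ 2 := by
    unfold PL.H315.A2 PL.H315.avg
    rw [iv_pt', iv_pt', card_product, PL.card_iv, PL.card_iv, sum_product]
    congr 2
    push_cast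
    rw [← mul_pow]
    norm_num
  have hΛs : 0 ≤ Λ * s := mul_nonneg hΛ hs
  have h3 : Λ * A2 K a X Z ≤ Λ * s := mul_le_mul_of_nonneg_left ha hΛ
  have h4 : A2 k a x z ≤ 4 * (Λ * s) := by
    unfold tb at h
    rcases Nat.lt_or_ge k K with h' | h'
    · rcases Nat.le_one_iff_eq_zero_or_eq_one.1 hb with rfl | rfl
      · rw [show min (k + 0) K = k by omega] at h
        have := (H579.not_sst h le_rfl hk).1
        rw [e] at this
        linarith
      · rw [show min (k + 1) K = k + 1 by omega] at h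
        have := (H769.not_sst_le h' h).1
        rw [e] at this
        linarith
    · rw [show min (k + b) K = k by omega] at h
      have := (H579.not_sst h le_rfl hk).1
      rw [e] at this
      linarith
  rw [h2, inv_mul_le_iff₀ (by positivity)] at h4
  refine h4.trans (le_of_eq (by ring))

omit [DecidableEq ι] in
/-- mass of a vector below a majorant on the root -/
theorem root_mass {K : ℕ} {s : ℝ} {a : ℤ × ℤ → ℝ} {v : ℤ → ℤ → ι → ℝ} {X Z : ℤ}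
    (hv : ∀ x ∈ iv K (ix K X), ∀ z ∈ iv K (ix K Z), v x z ⬝ᵥ v x z ≤ a (x, z) ^ 2)
    (ha : A2 K a X Z ≤ s) :
    ∑ x ∈ iv K (ix K X), ∑ z ∈ iv K (ix K Z), v x z ⬝ᵥ v x z ≤ s * 4 ^ K := by
  refine (sum_le_sum fun x hx => sum_le_sum fun z hz => hv x hx z hz).trans ?_
  have h2 : A2 K a X Z =
      ((4 : ℝ) ^ K)⁻¹ * ∑ x' ∈ iv K (ix K X), ∑ z' ∈ iv K (ix K Z), a (x', z') ^ 2 := by
    unfold PL.H315.A2 PL.H315.avg
    rw [iv_pt', iv_pt', card_product, PL.card_iv, PL.card_iv, sum_product]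
    congr 2
    push_cast
    rw [← mul_pow]
    norm_num
  rw [h2, inv_mul_le_iff₀ (by positivity)] at ha
  linarith

/-! ### Class data -/

/-- **The data of the stack used here** (fields of the class data and of the cut families). -/
structure StD (n : ℕ) (ez Λ s : ℝ) (F : ℕ → Pt → ℝ) (K : ℕ) (X Z : ℤ) (a : ℤ × ℤ → ℝ)
    (v : ℤ → ℤ → ι → ℝ) (C : FamV ι) : Prop where
  hK : K ≤ n
  hez : 0 ≤ ez
  hΛ : 0 ≤ Λ
  hs : 0 ≤ s
  bs : ∃ (cP : ℝ) (Q : ℕ → Pt → Prop), BSl n ez cP F Q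
  hC : ∀ x0 k z x, C x0 k z x = kF Λ a K F k (x0, x, z) • v x z
  hv : ∀ x ∈ iv K (ix K X), ∀ z ∈ iv K (ix K Z), v x z ⬝ᵥ v x z ≤ a (x, z) ^ 2
  ha : A2 K a X Z ≤ s

section cls

variable {n K : ℕ} {ez Λ s : ℝ} {F : ℕ → Pt → ℝ} {X Z : ℤ} {a : ℤ × ℤ → ℝ}
  {v : ℤ → ℤ → ι → ℝ} {C : FamV ι} {mu : ℤ → ℕ → ℤ → ℤ → ℝ} {T : Finset ℤ} {η : ℝ}

/-- the stopped points are few at every `x1`, `x3` -/
def Few (K : ℕ) (T : Finset ℤ) (X Z : ℤ) (mu : ℤ → ℕ → ℤ → ℤ → ℝ) (η : ℝ) : Prop :=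
  ∀ x ∈ iv K (ix K X), ∀ z ∈ iv K (ix K Z), ∑ t ∈ T, ∑ x0 ∈ iv K t, mu x 0 x0 z ≤ η * 2 ^ K

omit [DecidableEq ι] in
theorem StD.sq (hD : StD n ez Λ s F K X Z a v C) (x0 : ℤ) (k : ℕ) (z x : ℤ) :
    C x0 k z x ⬝ᵥ C x0 k z x = kF Λ a K F k (x0, x, z) ^ 2 * (v x z ⬝ᵥ v x z) := by
  rw [hD.hC, smul_dotProduct, dotProduct_smul, smul_eq_mul, smul_eq_mul]
  ring

omit [DecidableEq ι] in
/-- **Energy of the masked stack at every time.** -/
theorem en_cls (hD : StD n ez Λ s F K X Z a v C) (hm : Msk K mu) (h0 : 0 ≤ η)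
    (hη : Few K T X Z mu η) {k : ℕ} (hk : k ≤ K) :
    ∑ t ∈ T, ∑ y ∈ cb K (t, ix K X, ix K Z),
      Cm mu C y.1 k y.2.2 y.2.1 ⬝ᵥ Cm mu C y.1 k y.2.2 y.2.1 ≤ ez * (η * (s * 8 ^ K)) := by
  obtain ⟨cP, Q, hB⟩ := hD.bs
  have hL : Lin K ez (fun k => kF Λ a K F k) := by
    intro k hk m x1 x3
    have := lin_kF (Λ := Λ) (a := a) hB hD.hK hD.hez (b := 0) (by norm_num) k hk m x1 x3
    simp only [tb, Nat.add_zero, Nat.min_eq_left hk] at this
    exact this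
  have h1 := en_all (v := v) (f := fun k y => Cm mu C y.1 k y.2.2 y.2.1 ⬝ᵥ
    Cm mu C y.1 k y.2.2 y.2.1) T (ix K X) (ix K Z) hD.hez hL hm.stp
    (fun x1 hx x3 hz => by
      rw [hm.count]
      exact hη x1 hx x3 hz) hk (fun t _ y _ => le_of_eq (by rw [Cm_sq hm, hD.sq]))
  refine h1.trans (mul_le_mul_of_nonneg_left (mul_le_mul_of_nonneg_left ?_ h0) hD.hez)
  have h2 := mul_le_mul_of_nonneg_left (root_mass hD.hv hD.ha)
    (by positivity : (0 : ℝ) ≤ 2 ^ K)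
  refine h2.trans (le_of_eq ?_)
  rw [show (8 : ℝ) ^ K = 2 ^ K * 4 ^ K by rw [← mul_pow]; norm_num]
  ring

omit [DecidableEq ι] in
/-- **Mass of the masked stack on affected nodes**, all scales, time `k` (`b = 0`) or `k + 1`
(`b = 1`). -/
theorem aff_cls (hD : StD n ez Λ s F K X Z a v C) (hm : Msk K mu) (h0 : 0 < η) (h1 : η ≤ 1)
    (hη : Few K T X Z mu η) {A : ℕ → Pt → Prop} {P : ℝ} (hA : GPack A K P) (hP : 0 ≤ P) {h : ℕ}
    (hh : 1 ≤ h) (hPh : 2 * P ≤ h) {b : ℕ} (hb : b ≤ 1) :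
    ∑ t ∈ T, ∑ k ∈ range (K + 1), ∑ y ∈ cb K (t, ix K X, ix K Z), (if A k (cx k y) then
      Cm mu C y.1 (tb K b k) y.2.2 y.2.1 ⬝ᵥ Cm mu C y.1 (tb K b k) y.2.2 y.2.1 else 0) ≤
      ez * η * ((2 * h * (1 + Real.log (1 / η)) + T.card * (P * (4 * Λ))) * (s * 8 ^ K)) := by
  obtain ⟨cP, Q, hB⟩ := hD.bs
  have hτ : 0 ≤ 4 * Λ * s := mul_nonneg (mul_nonneg (by norm_num) hD.hΛ) hD.hs
  -- alive and affected
  obtain ⟨B, hBd⟩ : ∃ B : ℕ → Pt → Prop, ∀ k m, B k m ↔ (A k m ∧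
    ¬ sst Λ a K (tb K b k) (2 ^ k * m.2.1) (2 ^ k * m.2.2)) := ⟨_, fun _ _ => Iff.rfl⟩
  have hBp : GPack B K P := hA.mono fun k m h => ((hBd k m).1 h).1
  have hs : ∀ k ≤ K, ∀ y : Pt, sst Λ a K (tb K b k) (2 ^ k * ix k y.2.1) (2 ^ k * ix k y.2.2) →
      sst Λ a K (tb K b k) y.2.1 y.2.2 := by
    intro k hk y hy
    have hle : k ≤ tb K b k := by unfold tb; omega
    refine (H769.sst_congr ?_ ?_).1 hy
    · refine H460.ix_le hle ?_
      rw [H769.ix_two_pow_mul]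
    · refine H460.ix_le hle ?_
      rw [H769.ix_two_pow_mul]
  have hz : ∀ k ≤ K, ∀ y : Pt, A k (cx k y) → ¬ B k (cx k y) →
      Cm mu C y.1 (tb K b k) y.2.2 y.2.1 ⬝ᵥ Cm mu C y.1 (tb K b k) y.2.2 y.2.1 = 0 := by
    intro k hk y ha hn
    have h2 : sst Λ a K (tb K b k) y.2.1 y.2.2 := by
      refine hs k hk y ?_
      by_contra hc
      exact hn ((hBd k _).2 ⟨ha, hc⟩)
    rw [Cm_sq hm]
    split_ifs
    · rw [hD.sq]
      unfold H677.kF
      rw [if_pos (Or.inr h2)]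
      ring
    · rfl
  have hmain := aff_opt (v := v) (Z := fun k => kF Λ a K F (tb K b k))
    (S := fun k => On mu (tb K b k))
    (G := fun x0 x1 x3 => mu x1 0 x0 x3 = 1)
    (f := fun k y => Cm mu C y.1 (tb K b k) y.2.2 y.2.1 ⬝ᵥ Cm mu C y.1 (tb K b k) y.2.2 y.2.1)
    T (ix K X) (ix K Z) h0 h1 (A := B) (P := P) (fun t _ => hBp.lp _) hP hh hPh
    (τ := 4 * Λ * s) hD.hez hτ (lin_kF hB hD.hK hD.hez hb)
    (by
      intro k hk x hx y0 hy0
      refine hm.stp (tb K b k) (min_le_right _ _) x hx y0 ?_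
      rw [mem_iv] at hy0 ⊢
      exact H460.ix_le (by unfold tb; omega) hy0)
    (fun x1 hx x3 hz => by
      rw [hm.count]
      exact hη x1 hx x3 hz)
    (by
      intro t _ k hk y hy hBk
      obtain ⟨_, h2⟩ := (hBd k _).1 hBk
      rw [mem_cb] at hy
      have hx1 : ix K y.2.1 = ix K X := congrArg (fun p : Pt => p.2.1) hy
      have hx3 : ix K y.2.2 = ix K Z := congrArg (fun p : Pt => p.2.2) hy
      have hsub : ∀ (u c : ℤ), ix K u = c → ∀ u' ∈ iv k (ix k u), u' ∈ iv K c := by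
        intro u c hu u' hu'
        rw [mem_iv] at hu' ⊢
        rw [← hu]
        exact H460.ix_le hk hu'
      refine (sum_le_sum fun y1 h1' => sum_le_sum fun y3 h3' =>
        hD.hv y1 (hsub _ _ hx1 y1 h1') y3 (hsub _ _ hx3 y3 h3')).trans ?_
      have hle : k ≤ tb K b k := by unfold tb; omega
      refine alive_mass hD.hΛ hD.hs hk hb hx1 hx3 hD.ha fun h3 => h2 ?_
      refine (H769.sst_congr ?_ ?_).1 h3
      · refine H460.ix_le hle ?_
        exact (H769.ix_two_pow_mul k _).symm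
      · refine H460.ix_le hle ?_
        exact (H769.ix_two_pow_mul k _).symm)
    (fun t _ k hk y _ _ => le_of_eq (by rw [Cm_sq hm, hD.sq]))
  have hrw : ∑ t ∈ T, ∑ k ∈ range (K + 1), ∑ y ∈ cb K (t, ix K X, ix K Z),
      (if A k (cx k y) then Cm mu C y.1 (tb K b k) y.2.2 y.2.1 ⬝ᵥ
        Cm mu C y.1 (tb K b k) y.2.2 y.2.1 else 0) =
      ∑ t ∈ T, ∑ k ∈ range (K + 1), ∑ y ∈ cb K (t, ix K X, ix K Z),
      (if B k (cx k y) then Cm mu C y.1 (tb K b k) y.2.2 y.2.1 ⬝ᵥ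
        Cm mu C y.1 (tb K b k) y.2.2 y.2.1 else 0) := by
    refine sum_congr rfl fun t _ => sum_congr rfl fun k hk => sum_congr rfl fun y _ => ?_
    have hk' : k ≤ K := by rw [mem_range] at hk; omega
    by_cases hb' : B k (cx k y)
    · rw [if_pos hb', if_pos ((hBd k _).1 hb').1]
    · rw [if_neg hb']
      split_ifs with ha
      · exact hz k hk' y ha hb'
      · rfl
  rw [hrw]
  refine hmain.trans ?_
  have h2 := mul_le_mul_of_nonneg_left (root_mass hD.hv hD.ha)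
    (by positivity : (0 : ℝ) ≤ 2 ^ K)
  have hl : 0 ≤ Real.log (1 / η) := Real.log_nonneg (by rw [le_div_iff₀ h0]; linarith)
  have e8 : (8 : ℝ) ^ K = 2 ^ K * 4 ^ K := by rw [← mul_pow]; norm_num
  have h3 : 2 ^ K * ∑ x1 ∈ iv K (ix K X), ∑ x3 ∈ iv K (ix K Z), v x1 x3 ⬝ᵥ v x1 x3 ≤
      s * 8 ^ K := h2.trans (le_of_eq (by rw [e8]; ring))
  refine mul_le_mul_of_nonneg_left ?_ (mul_nonneg hD.hez h0.le)
  have h4 := mul_le_mul_of_nonneg_left h3
    (by positivity : (0 : ℝ) ≤ 2 * h * (1 + Real.log (1 / η)))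
  refine (add_le_add h4 le_rfl).trans (le_of_eq ?_)
  ring

end cls

end

end Vale.Agent.P141.H743
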