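import Vale.Agent.P141.H743.StopY

/-!
# P141, line (A): the stopped part of the stack, the numbers as a power

`num_pow` : `H743.num_FDY` at the caps `kg t r α` with the majorant `(3 α - 1) (r / t) ^ (4 - 6 α)`
of `η (1 + log (1 / η))`.
-/

namespace Vale.Agent.P141.H743

open Finset Matrix
open Vale.Agent.P141.PL (Pt iv ix cb cx mem_iv)
open Vale.Agent.P141.PL.H315 (Tri A2)
open Vale.Agent.P141.H677 (kF cP KT GT rt)
open Vale.Agent.P141.H677.Sk (FamA FamV FDs)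
open Vale.Agent.P141.H305 (Cls)
open Vale.Agent.P141.H501 (muT)
open Vale.Agent.P141.H970.SkG (kg kg_pos)

noncomputable section

open scoped Classical

variable {ι : Type} [Fintype ι] [DecidableEq ι]

/-- the function `η (1 + log (1 / η))` at the caps `(r / t) ^ α` -/
theorem Yf_kg {t r α : ℝ} (ht : 0 < t) (ht1 : t ≤ 1) (hr : 1 ≤ r) (hα : 1 ≤ α) :
    Yf ((r / t) ^ 2 / (kg t r α 0) ^ 6) ≤ (3 * α - 1) * (r / t) ^ (4 - 6 * α) := by
  have hr0 : 0 < r := by linarith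
  have hρ : 0 < r / t := div_pos hr0 ht
  have hρ1 : 1 ≤ r / t := by
    rw [le_div_iff₀ ht]
    linarith
  have h1 : (r / t) ^ 2 / (kg t r α 0) ^ 6 = (r / t) ^ (2 - 6 * α) := by
    rw [eta_kg ht hr]
    have h2 : t / r = (r / t)⁻¹ := (inv_div r t).symm
    rw [h2, Real.inv_rpow hρ.le, ← Real.rpow_neg hρ.le]
    congr 1
    ring
  rw [h1]
  generalize r / t = x at hρ hρ1 ⊢
  unfold Yf
  have h3 : Real.log (1 / x ^ (2 - 6 * α)) = (6 * α - 2) * Real.log x := by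
    rw [one_div, ← Real.rpow_neg hρ.le, Real.log_rpow hρ]
    ring
  have h4 : 2 * Real.log x ≤ x ^ 2 - 1 := by
    have h5 := Real.log_le_sub_one_of_pos (show 0 < x ^ 2 by positivity)
    rw [Real.log_pow] at h5
    push_cast at h5
    exact h5
  have h6 : 1 + (6 * α - 2) * Real.log x ≤ (3 * α - 1) * x ^ 2 := by
    have h7 := mul_le_mul_of_nonneg_left h4 (by linarith : (0 : ℝ) ≤ 3 * α - 1)
    nlinarith
  rw [h3]
  have h8 : x ^ (4 - 6 * α) = x ^ (2 - 6 * α) * x ^ 2 := by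
    rw [← Real.rpow_natCast x 2, ← Real.rpow_add hρ]
    congr 1
    push_cast
    ring
  rw [h8]
  have h9 : 0 < x ^ (2 - 6 * α) := Real.rpow_pos_of_pos hρ _
  calc x ^ (2 - 6 * α) * (1 + (6 * α - 2) * Real.log x)
      ≤ x ^ (2 - 6 * α) * ((3 * α - 1) * x ^ 2) := mul_le_mul_of_nonneg_left h6 h9.le
    _ = _ := by ring

variable {q : H401.Num} {n : ℕ} {ez : ℝ} {F1 F2 F3 : ℕ → Pt → ℝ} {K : ℕ} {x : Pt} {s r P : ℝ}
  {U : Tri} {g : ℤ → ℤ → ℝ} {u v : ℤ → ℤ → ι → ℝ} {A : FamA} {b C : FamV ι}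
  {Q1 Q2 Q3 : ℕ → Pt → Prop} {v' : ℤ → ℤ → ι → ℝ}

/-- **The numbers of the raw pair as a power of `r / t`.** -/
theorem num_pow (hD : FDs q n ez F1 F2 F3 K x s r U g u v A b C Q1 Q2 Q3 v')
    (hC : Cls K x s r P U g u v) (hKn : K ≤ n) (hez : 0 ≤ ez) (hcP : 0 ≤ q.cP) (ht : 0 < q.t)
    (ht1 : q.t ≤ 1) (he : 0 ≤ q.e0) (hd : 0 ≤ q.d) (hs : 0 < s) (hr : 1 ≤ r)
    (Al : ℕ → Pt → Prop) {o : ℤ} (ho : o = 1 ∨ o = -1) {sg : ℕ → Pt → ℝ}
    (hsg : ∀ k m, |sg k m| ≤ 1) {α : ℝ} (hα : 1 ≤ α) :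
    ∑ t ∈ rt (cx K x), ∑ x0 ∈ iv K t,
      EF q o K x U Q1 Q2 (muT Al o K (cx K x) sg (q.lam s r) u (kg q.t r α)) C x0 ≤
      3780000 * (5 + 40 * (q.cP + 2)) * (3 * α - 1) * (ez * (s * 8 ^ K)) *
        (q.t ^ (-q.d) * (r / q.t) ^ (4 - 6 * α)) := by
  have hr0 : 0 < r := by linarith
  refine (num_FDY hD hC hKn hez hcP ht ht1 he hd hs hr Al ho hsg (kg_pos ht hr α)
    (eta_kg_le ht ht1 hr hα)).trans ?_
  have h2 : 0 ≤ 3780000 * (5 + 40 * (q.cP + 2)) * (ez * (s * 8 ^ K)) * q.t ^ (-q.d) := by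
    have := Real.rpow_pos_of_pos ht (-q.d)
    positivity
  refine (mul_le_mul_of_nonneg_left (Yf_kg ht ht1 hr hα) h2).trans (le_of_eq ?_)
  ring

end

end Vale.Agent.P141.H743
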