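import Vale.Agent.P141.H743.CapCF
import Vale.Agent.P141.H743.StopX
import Vale.Agent.P141.H749.StarA

/-!
# P141, line (A): the data of the vector slot for the masked stack

`csd_FDs` : `H749.Star.CSd` for `Cm mu C x0`, cap `4 capV Lm s ez`, number `EF`.
-/

namespace Vale.Agent.P141.H743

open Finset Matrix
open Vale.Agent.P141.PL (Pt iv ix cx mem_iv ix_ix)
open Vale.Agent.P141.PL.H315 (Tri)
open Vale.Agent.P141.H677.Sk (FamA FamV FDs)
open Vale.Agent.P141.H305 (Cls)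
open Vale.Agent.P141.H215 (capV)

noncomputable section

open scoped Classical

variable {ι : Type} [Fintype ι] [DecidableEq ι]
  {q : H401.Num} {n : ℕ} {ez : ℝ} {F1 F2 F3 : ℕ → Pt → ℝ} {K : ℕ} {x : Pt} {s r P : ℝ}
  {U : Tri} {g : ℤ → ℤ → ℝ} {u v : ℤ → ℤ → ι → ℝ} {A : FamA} {b C : FamV ι}
  {Q1 Q2 Q3 : ℕ → Pt → Prop} {v' : ℤ → ℤ → ι → ℝ}

/-- **The data of the vector slot for the masked stack**, any mask. -/
theorem csd_FDs (hD : FDs q n ez F1 F2 F3 K x s r U g u v A b C Q1 Q2 Q3 v')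
    (hC : Cls K x s r P U g u v) (ht : 0 < q.t) (hs : 0 ≤ s) (hez : 0 ≤ ez) (hKn : K ≤ n)
    {mu : ℤ → ℕ → ℤ → ℤ → ℝ} (hmu : Msk K mu) (o x0 : ℤ) {σ : ℝ}
    (hσ : 4 * capV q.Lm s ez ≤ σ) :
    H749.Star.CSd q U K x o Q1 Q2 σ x0 (Cm mu C x0) (EF q o K x U Q1 Q2 mu C x0) where
  row k _ hk x1 m h := row_FDs hD hKn hmu x0 hk x1 m h
  cap k a n' m _ hka ha hn hm := by
    have h1 := capM_FDs hD hC ht hs hez hKn hmu x0 hka ha hn hm
    have h2 : ((σ - 4 * capV q.Lm s ez) • (1 : Matrix (P075.Ix k) (P075.Ix k) ℝ)).PosSemidef :=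
      Matrix.PosSemidef.one.smul (by linarith)
    have h3 := h2.add h1
    rwa [sub_smul, sub_add_sub_cancel] at h3
  nE := EF_nonneg o mu x0
  e1 hK := EF_en o mu x0 hK
  e2 := EF_kill o mu x0
  e3 := EF_cross o mu x0

end

end Vale.Agent.P141.H743
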