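import Vale.Agent.P141.H743.StopR
import Vale.Agent.P141.H883.CapT

/-!
# P141, line (A): the cap of the stack and of the masked stack, static weight

`capC_FDs` : `σ = 4 capV Lm s ez` for `QW a k (C k) 1` on the root, `k ≤ a ≤ K`;
`capM_FDs` : the same for the masked stack.
-/

namespace Vale.Agent.P141.H743

open Finset Matrix
open Vale.Agent.P141.PL (Pt iv ix cx mem_iv ix_ix)
open Vale.Agent.P141.PL.H315 (Tri)
open Vale.Agent.P141.H677.Sk (FamA FamV FDs)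
open Vale.Agent.P141.H103 (QW)
open Vale.Agent.P141.H305 (Cls)
open Vale.Agent.P141.H215 (capV capV_nonneg)
open Vale.Agent.P075 (Ix val)

noncomputable section

open scoped Classical

variable {ι : Type} [Fintype ι] [DecidableEq ι]
  {q : H401.Num} {n : ℕ} {ez : ℝ} {F1 F2 F3 : ℕ → Pt → ℝ} {K : ℕ} {x : Pt} {s r P : ℝ}
  {U : Tri} {g : ℤ → ℤ → ℝ} {u v : ℤ → ℤ → ι → ℝ} {A : FamA} {b C : FamV ι}
  {Q1 Q2 Q3 : ℕ → Pt → Prop} {v' : ℤ → ℤ → ι → ℝ}

/-- **The cap of the stack, static weight**, time `k` at scale `k`. -/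
theorem capC_FDs (hD : FDs q n ez F1 F2 F3 K x s r U g u v A b C Q1 Q2 Q3 v')
    (hC : Cls K x s r P U g u v) (ht : 0 < q.t) (hs : 0 ≤ s) (hez : 0 ≤ ez) (hKn : K ≤ n)
    (x0 : ℤ) {k a : ℕ} (hka : k ≤ a) (ha : a ≤ K) {n' m : ℤ}
    (hn : n' ∈ iv (K - a) (ix K x.1)) (hm : m ∈ iv (K - k) (ix K x.2.2)) :
    ((4 * capV q.Lm s ez) • (1 : Matrix (Ix k) (Ix k) ℝ) -
      QW a k (fun x1 z => C x0 k z x1) (fun _ => (1 : Matrix ι ι ℝ)) n' m).PosSemidef := by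
  have h0 : 0 ≤ 4 * capV q.Lm s ez := mul_nonneg (by norm_num) (capV_nonneg hez)
  have h1 := H883.capW3 hD hC ht hs hez hKn x0 (θ := 1) (cC := √(4 * capV q.Lm s ez)) zero_le_one
    (W := fun _ _ _ => (1 : Matrix ι ι ℝ))
    (fun _ _ _ _ _ => by
      rw [one_smul, sub_self]
      exact Matrix.PosSemidef.zero)
    (by
      rw [Real.sq_sqrt h0]
      unfold H215.capV
      exact le_of_eq (by ring)) k a n' m (hka.trans ha) ha k (min_le_left _ _)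
    (by rw [min_eq_left hka]; exact Nat.le_succ k) hn hm
  rw [Real.sq_sqrt h0] at h1
  have e : H505.Sk1.W3 (fun x1 z => C x0 (min k K) z x1)
      (fun _ _ _ => (1 : Matrix ι ι ℝ)) k a n' m =
      QW a k (fun x1 z => C x0 k z x1) (fun _ => (1 : Matrix ι ι ℝ)) n' m := by
    rw [min_eq_left (hka.trans ha)]
    rfl
  rwa [e] at h1

/-- **The cap of the masked stack.** -/
theorem capM_FDs (hD : FDs q n ez F1 F2 F3 K x s r U g u v A b C Q1 Q2 Q3 v')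
    (hC : Cls K x s r P U g u v) (ht : 0 < q.t) (hs : 0 ≤ s) (hez : 0 ≤ ez) (hKn : K ≤ n)
    {mu : ℤ → ℕ → ℤ → ℤ → ℝ} (hmu : Msk K mu) (x0 : ℤ) {k a : ℕ} (hka : k ≤ a) (ha : a ≤ K)
    {n' m : ℤ} (hn : n' ∈ iv (K - a) (ix K x.1)) (hm : m ∈ iv (K - k) (ix K x.2.2)) :
    ((4 * capV q.Lm s ez) • (1 : Matrix (Ix k) (Ix k) ℝ) -
      QW a k (fun x1 z => Cm mu C x0 k z x1) (fun _ => (1 : Matrix ι ι ℝ)) n' m).PosSemidef :=
  cm_cap hmu (capC_FDs hD hC ht hs hez hKn x0 hka ha hn hm)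

end

end Vale.Agent.P141.H743
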