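import Vale.Agent.P141.H460.AffV

/-!
# P141, line (A): the stopped part of the stack, energies

Points `x = (x0, x1, x3)`. `G x0 x1 x3` : the point is stopped. `S k x` : the mask of time `k` at
`x` is not zero; `Stp` : then the whole cell of `x0` of scale `k` is stopped. `f k x` : any function
at most `Z k x ^ 2 * (v x1 x3 ⬝ᵥ v x1 x3)` on the mask, at most zero off the mask.

* `mG`, `VG`, `VG_mrt` : mean of the indicator of `G` over the cells of `x0`, a martingale slot;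
* `lin_succ`, `stp_succ` : the families of time `k + 1` at the scale `k`;
* `en_stop` : energy at every time;
* `aff_stop` : energy on the affected nodes, all times (killed mass, cross mass);
* `mass_stop`, `en_all`, `aff_all`, `aff_opt` : the same with a small set of stopped points.
-/

namespace Vale.Agent.P141.H743

open Finset
open Vale.Agent.P141.PL (Pt iv ix cb cx mem_iv mem_cb card_iv card_cb ix_ix)
open Vale.Agent.P141.H460 (LPack Lin Mrt iv_succ nsq_nonneg slot_aff ix_mem)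

noncomputable section

open scoped Classical

variable {κ : Type*} [Fintype κ]

/-! ### The mean of the stopped set -/

/-- mean of the indicator of `G` over the cell `(k, m)` of `x0` -/
def mG (G : ℤ → Prop) (k : ℕ) (m : ℤ) : ℝ :=
  ((2 : ℝ) ^ k)⁻¹ * ∑ x0 ∈ iv k m, (if G x0 then (1 : ℝ) else 0)

theorem mG_nonneg (G : ℤ → Prop) (k : ℕ) (m : ℤ) : 0 ≤ mG G k m :=
  mul_nonneg (by positivity) (sum_nonneg fun _ _ => by split_ifs <;> norm_num)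

theorem mG_one {G : ℤ → Prop} {k : ℕ} {m : ℤ} (h : ∀ x0 ∈ iv k m, G x0) : mG G k m = 1 := by
  unfold mG
  rw [sum_congr rfl fun x hx => if_pos (h x hx), sum_const, card_iv, nsmul_eq_mul, mul_one]
  push_cast
  exact inv_mul_cancel₀ (by positivity)

theorem mG_le (G : ℤ → Prop) (k : ℕ) (m : ℤ) : mG G k m ≤ 1 := by
  unfold mG
  have h : ∑ x0 ∈ iv k m, (if G x0 then (1 : ℝ) else 0) ≤ 2 ^ k := by
    refine (sum_le_sum fun x _ => (show (if G x then (1 : ℝ) else 0) ≤ 1 by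
      split_ifs <;> norm_num)).trans (le_of_eq ?_)
    rw [sum_const, card_iv, nsmul_eq_mul, mul_one]
    push_cast
    rfl
  calc ((2 : ℝ) ^ k)⁻¹ * ∑ x0 ∈ iv k m, (if G x0 then (1 : ℝ) else 0) ≤
      ((2 : ℝ) ^ k)⁻¹ * 2 ^ k := mul_le_mul_of_nonneg_left h (by positivity)
    _ = 1 := inv_mul_cancel₀ (by positivity)

theorem mG_zero (G : ℤ → Prop) (m : ℤ) : mG G 0 m = if G m then 1 else 0 := by
  unfold mG
  have : iv 0 m = {m} := by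
    unfold PL.iv
    ext z
    rw [mem_Ico, mem_singleton]
    omega
  rw [this, sum_singleton, pow_zero, inv_one, one_mul]

theorem mG_succ (G : ℤ → Prop) (k : ℕ) (m : ℤ) :
    mG G (k + 1) m = 1 / 2 * (mG G k (2 * m) + mG G k (2 * m + 1)) := by
  unfold mG
  rw [iv_succ, pow_succ, mul_inv]
  ring

/-- the slot carried by the stopped set -/
def VG (G : ℤ → ℤ → ℤ → Prop) (v : ℤ → ℤ → κ → ℝ) (x1 x3 : ℤ) (k : ℕ) (m : ℤ) : κ → ℝ :=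
  mG (fun x0 => G x0 x1 x3) k m • v x1 x3

omit [Fintype κ] in
theorem VG_mrt (G : ℤ → ℤ → ℤ → Prop) (v : ℤ → ℤ → κ → ℝ) (x1 x3 : ℤ) (n : ℕ) :
    Mrt n (VG G v x1 x3) := by
  intro k _ m
  unfold VG
  rw [mG_succ, ← add_smul, smul_smul]

theorem VG_sq (G : ℤ → ℤ → ℤ → Prop) (v : ℤ → ℤ → κ → ℝ) (x1 x3 : ℤ) (k : ℕ) (m : ℤ) :
    VG G v x1 x3 k m ⬝ᵥ VG G v x1 x3 k m =
      mG (fun x0 => G x0 x1 x3) k m ^ 2 * (v x1 x3 ⬝ᵥ v x1 x3) := by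
  unfold VG
  rw [smul_dotProduct, dotProduct_smul, smul_eq_mul, smul_eq_mul]
  ring

theorem VG_le (G : ℤ → ℤ → ℤ → Prop) (v : ℤ → ℤ → κ → ℝ) (x1 x3 : ℤ) (k : ℕ) (m : ℤ) :
    VG G v x1 x3 k m ⬝ᵥ VG G v x1 x3 k m ≤ v x1 x3 ⬝ᵥ v x1 x3 := by
  rw [VG_sq]
  have h1 := mG_nonneg (fun x0 => G x0 x1 x3) k m
  have h2 := mG_le (fun x0 => G x0 x1 x3) k m
  have h3 := nsq_nonneg (v x1 x3)
  have h4 : mG (fun x0 => G x0 x1 x3) k m ^ 2 ≤ 1 := by nlinarith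
  nlinarith

theorem VG_zero (G : ℤ → ℤ → ℤ → Prop) (v : ℤ → ℤ → κ → ℝ) (x1 x3 m : ℤ) :
    VG G v x1 x3 0 m ⬝ᵥ VG G v x1 x3 0 m = if G m x1 x3 then v x1 x3 ⬝ᵥ v x1 x3 else 0 := by
  rw [VG_sq, mG_zero]
  split_ifs <;> simp

/-! ### The mask -/

/-- the mask of time `k` lives on the cells of `x0` full of stopped points -/
def Stp (K : ℕ) (G : ℤ → ℤ → ℤ → Prop) (S : ℕ → Pt → Prop) : Prop :=
  ∀ k ≤ K, ∀ x : Pt, S k x → ∀ y0 ∈ iv k (ix k x.1), G y0 x.2.1 x.2.2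

/-- the families of time `k + 1` at the scale `k` -/
theorem stp_succ {K : ℕ} {G : ℤ → ℤ → ℤ → Prop} {S : ℕ → Pt → Prop} (h : Stp K G S) :
    Stp K G fun k => S (min (k + 1) K) := by
  intro k hk x hx y0 hy0
  refine h (min (k + 1) K) (min_le_right _ _) x hx y0 ?_
  rw [mem_iv] at hy0 ⊢
  exact H460.ix_le (by omega) hy0

/-- the scalar factor of time `k + 1` at the scale `k` -/
theorem lin_succ {K : ℕ} {L : ℝ} {Z : ℕ → Pt → ℝ} (hZ : Lin K L Z) (hL : 0 ≤ L) :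
    Lin K (2 * L) fun k => Z (min (k + 1) K) := by
  intro k hk m x1 x3
  rcases Nat.lt_or_ge k K with h | h
  · have e : min (k + 1) K = k + 1 := by omega
    simp only [e]
    have h1 := hZ (k + 1) h (ix 1 m) x1 x3
    refine le_trans ?_ (h1.trans (le_of_eq (by rw [pow_succ]; ring)))
    refine sum_le_sum_of_subset_of_nonneg ?_ fun _ _ _ => sq_nonneg _
    intro x hx
    rw [mem_iv] at hx ⊢
    rw [← hx, ix_ix]
  · have e : min (k + 1) K = k := by omega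
    simp only [e]
    refine (hZ k hk m x1 x3).trans ?_
    have : (0 : ℝ) < 2 ^ k := by positivity
    nlinarith

/-- on the mask the slot is the full vector -/
theorem VG_stp {K : ℕ} {G : ℤ → ℤ → ℤ → Prop} {S : ℕ → Pt → Prop} (h : Stp K G S) {k : ℕ}
    (hk : k ≤ K) {x : Pt} (hx : S k x) (v : ℤ → ℤ → κ → ℝ) :
    VG G v x.2.1 x.2.2 k (ix k x.1) ⬝ᵥ VG G v x.2.1 x.2.2 k (ix k x.1) =
      v x.2.1 x.2.2 ⬝ᵥ v x.2.1 x.2.2 := by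
  rw [VG_sq, mG_one (h k hk x hx)]
  ring

/-- the function of the mask is at most the slot -/
theorem mask_le {K : ℕ} {G : ℤ → ℤ → ℤ → Prop} {S : ℕ → Pt → Prop} (h : Stp K G S) {k : ℕ}
    (hk : k ≤ K) (x : Pt) (v : ℤ → ℤ → κ → ℝ) (Z : ℕ → Pt → ℝ) :
    (if S k x then Z k x ^ 2 * (v x.2.1 x.2.2 ⬝ᵥ v x.2.1 x.2.2) else 0) ≤
      Z k x ^ 2 * (VG G v x.2.1 x.2.2 k (ix k x.1) ⬝ᵥ VG G v x.2.1 x.2.2 k (ix k x.1)) := by
  split_ifs with hx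
  · rw [VG_stp h hk hx]
  · exact mul_nonneg (sq_nonneg _) (nsq_nonneg _)

/-! ### The energies -/

section main

variable {K : ℕ} {M : Pt} {L : ℝ} {Z : ℕ → Pt → ℝ} {G : ℤ → ℤ → ℤ → Prop}
  {S : ℕ → Pt → Prop} {v : ℤ → ℤ → κ → ℝ} {f : ℕ → Pt → ℝ}

/-- **Energy at every time.** -/
theorem en_stop (hL : 0 ≤ L) (hZ : Lin K L Z) (hS : Stp K G S) {k : ℕ} (hk : k ≤ K)
    (hf : ∀ x ∈ cb K M, f k x ≤
      if S k x then Z k x ^ 2 * (v x.2.1 x.2.2 ⬝ᵥ v x.2.1 x.2.2) else 0) :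
    ∑ x ∈ cb K M, f k x ≤
      L * ∑ x ∈ cb K M, (if G x.1 x.2.1 x.2.2 then v x.2.1 x.2.2 ⬝ᵥ v x.2.1 x.2.2 else 0) := by
  have h1 : ∀ c : Pt → ℝ, ∑ x ∈ cb K M, c x =
      ∑ x1 ∈ iv K M.2.1, ∑ x3 ∈ iv K M.2.2, ∑ m ∈ iv (K - k) M.1, ∑ x0 ∈ iv k m,
        c (x0, x1, x3) := by
    intro c
    unfold PL.cb
    rw [sum_product]
    simp only [sum_product]
    rw [sum_comm]
    refine sum_congr rfl fun x1 _ => ?_
    rw [sum_comm]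
    refine sum_congr rfl fun x3 _ => ?_
    exact H460.iv_part hk M.1 fun x0 => c (x0, x1, x3)
  refine (sum_le_sum fun x hx => (hf x hx).trans (mask_le hS hk x v Z)).trans ?_
  rw [h1, h1, mul_sum]
  refine sum_le_sum fun x1 _ => ?_
  rw [mul_sum]
  refine sum_le_sum fun x3 _ => ?_
  rw [mul_sum]
  refine sum_le_sum fun m _ => ?_
  have e : ∑ x0 ∈ iv k m, Z k (x0, x1, x3) ^ 2 *
      (VG G v x1 x3 k (ix k x0) ⬝ᵥ VG G v x1 x3 k (ix k x0)) =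
      (∑ x0 ∈ iv k m, Z k (x0, x1, x3) ^ 2) * (VG G v x1 x3 k m ⬝ᵥ VG G v x1 x3 k m) := by
    rw [sum_mul]
    exact sum_congr rfl fun x0 h => by rw [mem_iv.1 h]
  have h2 := H460.jensen (VG_mrt G v x1 x3 K) hk m
  have h3 : ∑ x0 ∈ iv k m, VG G v x1 x3 0 x0 ⬝ᵥ VG G v x1 x3 0 x0 =
      ∑ x0 ∈ iv k m, (if G x0 x1 x3 then v x1 x3 ⬝ᵥ v x1 x3 else 0) :=
    sum_congr rfl fun x0 _ => VG_zero G v x1 x3 x0
  rw [h3] at h2
  refine (le_of_eq e).trans ?_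
  calc (∑ x0 ∈ iv k m, Z k (x0, x1, x3) ^ 2) * (VG G v x1 x3 k m ⬝ᵥ VG G v x1 x3 k m)
      ≤ L * 2 ^ k * (VG G v x1 x3 k m ⬝ᵥ VG G v x1 x3 k m) :=
        mul_le_mul_of_nonneg_right (hZ k hk m x1 x3) (nsq_nonneg _)
    _ = L * (2 ^ k * (VG G v x1 x3 k m ⬝ᵥ VG G v x1 x3 k m)) := by ring
    _ ≤ _ := mul_le_mul_of_nonneg_left h2 hL

/-- **Energy on the affected nodes, all times.** `A` : any locally packed predicate of nodes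
(own squares, squares of the other slots, real ties), `τ` : local mass of `v` there. -/
theorem aff_stop {A : ℕ → Pt → Prop} {P : ℝ} (hp : LPack A K M P) (hP : 0 ≤ P) {h : ℕ}
    (hh : 1 ≤ h) (hPh : 2 * P ≤ h) (q : ℕ) {τ : ℝ} (hL : 0 ≤ L) (hτ : 0 ≤ τ) (hZ : Lin K L Z)
    (hS : Stp K G S)
    (hτm : ∀ k ≤ K, ∀ x ∈ cb K M, A k (cx k x) → ∑ y1 ∈ iv k (ix k x.2.1),
      ∑ y3 ∈ iv k (ix k x.2.2), (v y1 y3 ⬝ᵥ v y1 y3) ≤ τ * 4 ^ k)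
    (hf : ∀ k ≤ K, ∀ x ∈ cb K M, A k (cx k x) → f k x ≤
      if S k x then Z k x ^ 2 * (v x.2.1 x.2.2 ⬝ᵥ v x.2.1 x.2.2) else 0) :
    ∑ k ∈ range (K + 1), ∑ x ∈ cb K M, (if A k (cx k x) then f k x else 0) ≤
      (1 + h * q) * (L * ∑ x ∈ cb K M,
        (if G x.1 x.2.1 x.2.2 then v x.2.1 x.2.2 ⬝ᵥ v x.2.1 x.2.2 else 0)) +
      L * τ * P * (1 / 2) ^ q * 8 ^ K := by
  have h1 := slot_aff hp hP hh hPh q hL hτ hZ (V := VG G v) (fun x1 x3 => VG_mrt G v x1 x3 K)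
    (fun k hk x hx ha => (sum_le_sum fun y1 _ => sum_le_sum fun y3 _ =>
      VG_le G v y1 y3 k (ix k x.1)).trans (hτm k hk x hx ha))
  have h2 : ∀ k ∈ range (K + 1), ∑ x ∈ cb K M, (if A k (cx k x) then f k x else 0) ≤
      ∑ x ∈ cb K M, (if A k (cx k x) then Z k x ^ 2 *
        (VG G v x.2.1 x.2.2 k (ix k x.1) ⬝ᵥ VG G v x.2.1 x.2.2 k (ix k x.1)) else 0) := by
    intro k hk
    have hk' : k ≤ K := by rw [mem_range] at hk; omega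
    refine sum_le_sum fun x hx => ?_
    split_ifs with ha
    · exact (hf k hk' x hx ha).trans (mask_le hS hk' x v Z)
    · exact le_rfl
  have h3 : ∑ x ∈ cb K M, L * (VG G v x.2.1 x.2.2 0 x.1 ⬝ᵥ VG G v x.2.1 x.2.2 0 x.1) =
      L * ∑ x ∈ cb K M,
        (if G x.1 x.2.1 x.2.2 then v x.2.1 x.2.2 ⬝ᵥ v x.2.1 x.2.2 else 0) := by
    rw [mul_sum]
    refine sum_congr rfl fun x _ => ?_
    rw [VG_zero]
  rw [h3] at h1
  exact (sum_le_sum h2).trans h1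

/-- **Mass of the stopped set.** -/
theorem mass_stop (T : Finset ℤ) (m1 m3 : ℤ) {η : ℝ}
    (hG : ∀ x1 ∈ iv K m1, ∀ x3 ∈ iv K m3,
      ∑ t ∈ T, ∑ x0 ∈ iv K t, (if G x0 x1 x3 then (1 : ℝ) else 0) ≤ η * 2 ^ K) :
    ∑ t ∈ T, ∑ x ∈ cb K (t, m1, m3),
      (if G x.1 x.2.1 x.2.2 then v x.2.1 x.2.2 ⬝ᵥ v x.2.1 x.2.2 else 0) ≤
      η * (2 ^ K * ∑ x1 ∈ iv K m1, ∑ x3 ∈ iv K m3, v x1 x3 ⬝ᵥ v x1 x3) := by
  have e : ∑ t ∈ T, ∑ x ∈ cb K (t, m1, m3),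
      (if G x.1 x.2.1 x.2.2 then v x.2.1 x.2.2 ⬝ᵥ v x.2.1 x.2.2 else 0) =
      ∑ x1 ∈ iv K m1, ∑ x3 ∈ iv K m3, (∑ t ∈ T, ∑ x0 ∈ iv K t,
        (if G x0 x1 x3 then (1 : ℝ) else 0)) * (v x1 x3 ⬝ᵥ v x1 x3) := by
    have e1 : ∀ t ∈ T, ∑ x ∈ cb K (t, m1, m3),
        (if G x.1 x.2.1 x.2.2 then v x.2.1 x.2.2 ⬝ᵥ v x.2.1 x.2.2 else 0) =
        ∑ x1 ∈ iv K m1, ∑ x3 ∈ iv K m3, (∑ x0 ∈ iv K t,
          (if G x0 x1 x3 then (1 : ℝ) else 0)) * (v x1 x3 ⬝ᵥ v x1 x3) := by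
      intro t _
      unfold PL.cb
      rw [sum_product]
      simp only [sum_product]
      rw [sum_comm]
      refine sum_congr rfl fun x1 _ => ?_
      rw [sum_comm]
      refine sum_congr rfl fun x3 _ => ?_
      rw [sum_mul]
      refine sum_congr rfl fun x0 _ => ?_
      split_ifs <;> simp
    rw [sum_congr rfl e1, sum_comm]
    refine sum_congr rfl fun x1 _ => ?_
    rw [sum_comm]
    refine sum_congr rfl fun x3 _ => ?_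
    rw [sum_mul]
  rw [e, mul_sum, mul_sum]
  refine sum_le_sum fun x1 h1 => ?_
  rw [mul_sum, mul_sum]
  refine sum_le_sum fun x3 h3 => ?_
  refine (mul_le_mul_of_nonneg_right (hG x1 h1 x3 h3) (nsq_nonneg (v x1 x3))).trans (le_of_eq ?_)
  ring

/-- energy at every time, with the size of the stopped set -/
theorem en_all (T : Finset ℤ) (m1 m3 : ℤ) {η : ℝ} (hL : 0 ≤ L) (hZ : Lin K L Z)
    (hS : Stp K G S)
    (hG : ∀ x1 ∈ iv K m1, ∀ x3 ∈ iv K m3,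
      ∑ t ∈ T, ∑ x0 ∈ iv K t, (if G x0 x1 x3 then (1 : ℝ) else 0) ≤ η * 2 ^ K)
    {k : ℕ} (hk : k ≤ K) (hf : ∀ t ∈ T, ∀ x ∈ cb K (t, m1, m3), f k x ≤
      if S k x then Z k x ^ 2 * (v x.2.1 x.2.2 ⬝ᵥ v x.2.1 x.2.2) else 0) :
    ∑ t ∈ T, ∑ x ∈ cb K (t, m1, m3), f k x ≤
      L * (η * (2 ^ K * ∑ x1 ∈ iv K m1, ∑ x3 ∈ iv K m3, v x1 x3 ⬝ᵥ v x1 x3)) := by
  refine (sum_le_sum fun t ht => en_stop hL hZ hS hk (hf t ht)).trans ?_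
  rw [← mul_sum]
  exact mul_le_mul_of_nonneg_left (mass_stop T m1 m3 hG) hL

/-- energy on the affected nodes, with the size of the stopped set -/
theorem aff_all (T : Finset ℤ) (m1 m3 : ℤ) {η : ℝ} {A : ℕ → Pt → Prop} {P : ℝ}
    (hp : ∀ t ∈ T, LPack A K (t, m1, m3) P) (hP : 0 ≤ P) {h : ℕ}
    (hh : 1 ≤ h) (hPh : 2 * P ≤ h) (q : ℕ) {τ : ℝ} (hL : 0 ≤ L) (hτ : 0 ≤ τ) (hZ : Lin K L Z)
    (hS : Stp K G S)
    (hG : ∀ x1 ∈ iv K m1, ∀ x3 ∈ iv K m3,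
      ∑ t ∈ T, ∑ x0 ∈ iv K t, (if G x0 x1 x3 then (1 : ℝ) else 0) ≤ η * 2 ^ K)
    (hτm : ∀ t ∈ T, ∀ k ≤ K, ∀ x ∈ cb K (t, m1, m3), A k (cx k x) → ∑ y1 ∈ iv k (ix k x.2.1),
      ∑ y3 ∈ iv k (ix k x.2.2), (v y1 y3 ⬝ᵥ v y1 y3) ≤ τ * 4 ^ k)
    (hf : ∀ t ∈ T, ∀ k ≤ K, ∀ x ∈ cb K (t, m1, m3), A k (cx k x) → f k x ≤
      if S k x then Z k x ^ 2 * (v x.2.1 x.2.2 ⬝ᵥ v x.2.1 x.2.2) else 0) :
    ∑ t ∈ T, ∑ k ∈ range (K + 1), ∑ x ∈ cb K (t, m1, m3), (if A k (cx k x) then f k x else 0) ≤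
      (1 + h * q) * (L * (η * (2 ^ K * ∑ x1 ∈ iv K m1, ∑ x3 ∈ iv K m3, v x1 x3 ⬝ᵥ v x1 x3))) +
      T.card * (L * τ * P * (1 / 2) ^ q * 8 ^ K) := by
  refine (sum_le_sum fun t ht => aff_stop (hp t ht) hP hh hPh q hL hτ hZ hS (hτm t ht)
    (hf t ht)).trans ?_
  rw [sum_add_distrib, sum_const, nsmul_eq_mul, ← mul_sum, ← mul_sum]
  have h1 := mul_le_mul_of_nonneg_left (mass_stop (v := v) T m1 m3 hG) hL
  have h2 : (0 : ℝ) ≤ 1 + h * q := by positivity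
  have h3 := mul_le_mul_of_nonneg_left h1 h2
  linarith

/-- the cutoff: half powers below any `η` -/
theorem cutoff {η : ℝ} (h0 : 0 < η) (h1 : η ≤ 1) :
    ∃ q : ℕ, (1 / 2 : ℝ) ^ q ≤ η ∧ (q : ℝ) ≤ 1 + 2 * Real.log (1 / η) := by
  have hl : 0 ≤ Real.log (1 / η) := Real.log_nonneg (by rw [le_div_iff₀ h0]; linarith)
  refine ⟨⌈2 * Real.log (1 / η)⌉₊, ?_, ?_⟩
  · have h2 := Nat.le_ceil (2 * Real.log (1 / η))
    have h3 : Real.log (1 / η) ≤ ⌈2 * Real.log (1 / η)⌉₊ * Real.log 2 := by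
      have h4 : (1 : ℝ) / 2 ≤ Real.log 2 := by
        have := Real.log_two_gt_d9
        linarith
      nlinarith
    rw [← Real.log_pow] at h3
    have h5 : 1 / η ≤ 2 ^ ⌈2 * Real.log (1 / η)⌉₊ :=
      (Real.log_le_log_iff (by positivity) (by positivity)).1 h3
    rw [one_div, one_div] at *
    rw [inv_pow]
    exact inv_le_of_inv_le₀ h0 h5
  · have := Nat.ceil_lt_add_one (a := 2 * Real.log (1 / η)) (by positivity)
    linarith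

/-- **Energy on the affected nodes, final form**: linear in the size `η` of the stopped set, up to
the logarithm. -/
theorem aff_opt (T : Finset ℤ) (m1 m3 : ℤ) {η : ℝ} (h0 : 0 < η) (hη : η ≤ 1)
    {A : ℕ → Pt → Prop} {P : ℝ} (hp : ∀ t ∈ T, LPack A K (t, m1, m3) P) (hP : 0 ≤ P) {h : ℕ}
    (hh : 1 ≤ h) (hPh : 2 * P ≤ h) {τ : ℝ} (hL : 0 ≤ L) (hτ : 0 ≤ τ) (hZ : Lin K L Z)
    (hS : Stp K G S)
    (hG : ∀ x1 ∈ iv K m1, ∀ x3 ∈ iv K m3,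
      ∑ t ∈ T, ∑ x0 ∈ iv K t, (if G x0 x1 x3 then (1 : ℝ) else 0) ≤ η * 2 ^ K)
    (hτm : ∀ t ∈ T, ∀ k ≤ K, ∀ x ∈ cb K (t, m1, m3), A k (cx k x) → ∑ y1 ∈ iv k (ix k x.2.1),
      ∑ y3 ∈ iv k (ix k x.2.2), (v y1 y3 ⬝ᵥ v y1 y3) ≤ τ * 4 ^ k)
    (hf : ∀ t ∈ T, ∀ k ≤ K, ∀ x ∈ cb K (t, m1, m3), A k (cx k x) → f k x ≤
      if S k x then Z k x ^ 2 * (v x.2.1 x.2.2 ⬝ᵥ v x.2.1 x.2.2) else 0) :
    ∑ t ∈ T, ∑ k ∈ range (K + 1), ∑ x ∈ cb K (t, m1, m3), (if A k (cx k x) then f k x else 0) ≤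
      L * η * ((2 * h * (1 + Real.log (1 / η))) *
          (2 ^ K * ∑ x1 ∈ iv K m1, ∑ x3 ∈ iv K m3, v x1 x3 ⬝ᵥ v x1 x3) +
        T.card * (P * (τ * 8 ^ K))) := by
  obtain ⟨q, hq1, hq2⟩ := cutoff h0 hη
  have hm : (0 : ℝ) ≤ 2 ^ K * ∑ x1 ∈ iv K m1, ∑ x3 ∈ iv K m3, v x1 x3 ⬝ᵥ v x1 x3 :=
    mul_nonneg (by positivity) (sum_nonneg fun _ _ => sum_nonneg fun _ _ => nsq_nonneg _)
  refine (aff_all T m1 m3 hp hP hh hPh q hL hτ hZ hS hG hτm hf).trans ?_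
  have hh' : (1 : ℝ) ≤ h := by exact_mod_cast hh
  have h1 : (1 + (h : ℝ) * q) ≤ 2 * h * (1 + Real.log (1 / η)) := by
    have := mul_le_mul_of_nonneg_left hq2 (by linarith : (0 : ℝ) ≤ h)
    nlinarith
  have h2 : (0 : ℝ) ≤ L * (η * (2 ^ K * ∑ x1 ∈ iv K m1, ∑ x3 ∈ iv K m3, v x1 x3 ⬝ᵥ v x1 x3)) :=
    mul_nonneg hL (mul_nonneg h0.le hm)
  have h3 : L * τ * P * (1 / 2) ^ q * 8 ^ K ≤ L * τ * P * η * 8 ^ K :=
    mul_le_mul_of_nonneg_right (mul_le_mul_of_nonneg_left hq1 (by positivity)) (by positivity)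
  refine (add_le_add (mul_le_mul_of_nonneg_right h1 h2)
    (mul_le_mul_of_nonneg_left h3 (Nat.cast_nonneg _))).trans (le_of_eq ?_)
  ring

end main

end

end Vale.Agent.P141.H743
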