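import Vale.Agent.P141.H743.StopR

/-!
# P141, line (A): the stopped part of the stack, numbers of the cut families

`EF` : the sum of the three numbers of the raw pair at one `x0`; `num_FD` : its sum over `x0` at
class data, `κ 0` the first cap of the generations.
-/

namespace Vale.Agent.P141.H743

open Finset Matrix
open Vale.Agent.P141.PL (Pt iv ix cb cx mem_iv mem_cb card_iv card_cb ix_ix ix_zero)
open Vale.Agent.P141.PL.H315 (Tri A2)
open Vale.Agent.P141.H48 (BSl sst)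
open Vale.Agent.P141.H677 (kF cP KT GT rt)
open Vale.Agent.P141.H677.Sk (FamA FamV FDs)
open Vale.Agent.P141.H103 (GW QW)
open Vale.Agent.P141.H305 (Cls)
open Vale.Agent.P141.H501 (muT)
open Vale.Agent.P075 (Ix val)

noncomputable section

open scoped Classical

variable {ι : Type} [Fintype ι] [DecidableEq ι]

/-- a small set at every root is small with constant at most one -/
theorem Few.one {K : ℕ} {X Z : ℤ} {mu : ℤ → ℕ → ℤ → ℤ → ℝ} (hm : Msk K mu) {c : ℝ} {t : ℤ}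
    (h : Few K {t} X Z mu c) : Few K {t} X Z mu (min 1 c) := by
  intro x hx z hz
  have h1 := h x hx z hz
  rw [sum_singleton] at h1 ⊢
  have h2 : ∑ x0 ∈ iv K t, mu x 0 x0 z ≤ 1 * 2 ^ K := by
    refine (sum_le_sum fun x0 _ => (show mu x 0 x0 z ≤ 1 by
      rcases hm.or x 0 x0 z with h3 | h3 <;> rw [h3] <;> norm_num)).trans (le_of_eq ?_)
    rw [sum_const, card_iv, nsmul_eq_mul]
    push_cast
    ring
  rcases le_total 1 c with h3 | h3
  · rw [min_eq_left h3]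
    exact h2
  · rw [min_eq_right h3]
    exact h1

/-- the numbers at `min 1 (c η)` -/
theorem min_num {η c a b : ℝ} (h0 : 0 < η) (h1 : η ≤ 1) (hc : 1 ≤ c) (ha : 0 ≤ a) (hb : 0 ≤ b) :
    min 1 (c * η) * (b + a * (1 + Real.log (1 / min 1 (c * η)))) ≤
      c * η * (b + a * (1 + Real.log (1 / η))) := by
  have hcη : 0 < c * η := by positivity
  have hl : 0 ≤ Real.log (1 / η) := Real.log_nonneg (by rw [le_div_iff₀ h0]; linarith)
  rcases le_total 1 (c * η) with h | h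
  · rw [min_eq_left h]
    have h2 : b + a * (1 + Real.log (1 / 1)) ≤ b + a * (1 + Real.log (1 / η)) := by
      rw [div_one, Real.log_one]
      nlinarith
    have h3 : 0 ≤ b + a * (1 + Real.log (1 / 1)) := by
      rw [div_one, Real.log_one]
      nlinarith
    calc 1 * (b + a * (1 + Real.log (1 / 1))) ≤ c * η * (b + a * (1 + Real.log (1 / 1))) :=
          mul_le_mul_of_nonneg_right h h3
      _ ≤ _ := mul_le_mul_of_nonneg_left h2 hcη.le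
  · rw [min_eq_right h]
    have h2 : Real.log (1 / (c * η)) ≤ Real.log (1 / η) := by
      refine Real.log_le_log (by positivity) ?_
      exact one_div_le_one_div_of_le h0 (le_mul_of_one_le_left h0.le hc)
    exact mul_le_mul_of_nonneg_left (by nlinarith) hcη.le

section fds

variable {q : H401.Num} {n : ℕ} {ez : ℝ} {F1 F2 F3 : ℕ → Pt → ℝ} {K : ℕ} {x : Pt} {s r P : ℝ}
  {U : Tri} {g : ℤ → ℤ → ℝ} {u v : ℤ → ℤ → ι → ℝ} {A : FamA} {b C : FamV ι}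
  {Q1 Q2 Q3 : ℕ → Pt → Prop} {v' : ℤ → ℤ → ι → ℝ}

/-- the three numbers of the raw pair at one `x0`, for the masked stack -/
def EF (q : H401.Num) (o : ℤ) (K : ℕ) (x : Pt) (U : Tri) (Q1 Q2 : ℕ → Pt → Prop)
    (mu : ℤ → ℕ → ℤ → ℤ → ℝ) (C : FamV ι) (x0 : ℤ) : ℝ :=
  E1 K (ix K x.1) (ix K x.2.2) (Cm mu C x0) +
    E2 K (ix K x.1) (ix K x.2.2) x0 (H401.qC q U K Q2) (Cm mu C x0) +
    E3 K (ix K x.1) (ix K x.2.1) (ix K x.2.2) x0 (cP o x0) (H401.qA q U K Q1) (Cm mu C x0)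

theorem EF_nonneg (o : ℤ) (mu : ℤ → ℕ → ℤ → ℤ → ℝ) (x0 : ℤ) :
    0 ≤ EF q o K x U Q1 Q2 mu C x0 :=
  add_nonneg (add_nonneg (E1_nonneg _ _ _ _) (E2_nonneg _ _ _ _ _ _)) (E3_nonneg _ _ _ _ _ _ _ _)

/-- energy at time `1` (`hE` of `H170.RowC.rawSq`) -/
theorem EF_en (o : ℤ) (mu : ℤ → ℕ → ℤ → ℤ → ℝ) (x0 : ℤ) (hK : 0 < K) :
    ∑ x' ∈ iv K (ix K x.1), ∑ z ∈ iv K (ix K x.2.2),
      Cm mu C x0 (0 + 1) z x' ⬝ᵥ Cm mu C x0 (0 + 1) z x' ≤ EF q o K x U Q1 Q2 mu C x0 := by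
  have h1 : E1 K (ix K x.1) (ix K x.2.2) (Cm mu C x0) =
      ∑ x' ∈ iv K (ix K x.1), ∑ z ∈ iv K (ix K x.2.2),
        Cm mu C x0 (0 + 1) z x' ⬝ᵥ Cm mu C x0 (0 + 1) z x' := by
    unfold E1
    rw [if_pos hK]
  rw [← h1]
  unfold EF
  have h2 := E2_nonneg K (ix K x.1) (ix K x.2.2) x0 (H401.qC q U K Q2) (Cm mu C x0)
  have h3 := E3_nonneg K (ix K x.1) (ix K x.2.1) (ix K x.2.2) x0 (cP o x0) (H401.qA q U K Q1)
    (Cm mu C x0)
  linarith

/-- killed mass (`hDC` of `H170.RowC.rawSq`) -/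
theorem EF_kill (o : ℤ) (mu : ℤ → ℕ → ℤ → ℤ → ℝ) (x0 : ℤ) :
    ∑ k ∈ Ico (0 + 1) K, ∑ x' ∈ iv K (ix K x.1), ∑ z ∈ iv K (ix K x.2.2),
      (if H401.qC q U K Q2 k (ix k x0) (ix k z) (ix k x') then
        Cm mu C x0 (k + 1) z x' ⬝ᵥ Cm mu C x0 (k + 1) z x' else 0) ≤
      EF q o K x U Q1 Q2 mu C x0 := by
  have h1 := E1_nonneg K (ix K x.1) (ix K x.2.2) (Cm mu C x0)
  have h3 := E3_nonneg K (ix K x.1) (ix K x.2.1) (ix K x.2.2) x0 (cP o x0) (H401.qA q U K Q1)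
    (Cm mu C x0)
  have h2 : ∑ k ∈ Ico (0 + 1) K, ∑ x' ∈ iv K (ix K x.1), ∑ z ∈ iv K (ix K x.2.2),
      (if H401.qC q U K Q2 k (ix k x0) (ix k z) (ix k x') then
        Cm mu C x0 (k + 1) z x' ⬝ᵥ Cm mu C x0 (k + 1) z x' else 0) =
      E2 K (ix K x.1) (ix K x.2.2) x0 (H401.qC q U K Q2) (Cm mu C x0) := rfl
  rw [h2]
  unfold EF
  linarith

/-- cross mass (`hCR` of `H170.RowC.rawSq`) -/
theorem EF_cross (o : ℤ) (mu : ℤ → ℕ → ℤ → ℤ → ℝ) (x0 : ℤ) :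
    ∑ k ∈ Ico (0 + 1) K, GW K (ix K x.2.1) (ix K x.2.2) (ix K x.1) k (cP o x0 k)
      (fun n2 n1 m => if H401.qA q U K Q1 k (ix k x0) m n2 then
        (QW k k (fun x' z => Cm mu C x0 (k + 1) z x') (fun _ => (1 : Matrix ι ι ℝ)) n1 m).trace
          else 0) ≤ EF q o K x U Q1 Q2 mu C x0 := by
  have h1 := E1_nonneg K (ix K x.1) (ix K x.2.2) (Cm mu C x0)
  have h2 := E2_nonneg K (ix K x.1) (ix K x.2.2) x0 (H401.qC q U K Q2) (Cm mu C x0)
  have h3 : ∑ k ∈ Ico (0 + 1) K, GW K (ix K x.2.1) (ix K x.2.2) (ix K x.1) k (cP o x0 k)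
      (fun n2 n1 m => if H401.qA q U K Q1 k (ix k x0) m n2 then
        (QW k k (fun x' z => Cm mu C x0 (k + 1) z x') (fun _ => (1 : Matrix ι ι ℝ)) n1 m).trace
          else 0) =
      E3 K (ix K x.1) (ix K x.2.1) (ix K x.2.2) x0 (cP o x0) (H401.qA q U K Q1)
        (Cm mu C x0) := rfl
  rw [h3]
  unfold EF
  linarith

/-- **The sum over `x0` at class data.** `κ 0` : the first cap; `h` : any natural number at least
`6 (cP + 2)`. -/
theorem num_FD (hD : FDs q n ez F1 F2 F3 K x s r U g u v A b C Q1 Q2 Q3 v')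
    (hC : Cls K x s r P U g u v) (hKn : K ≤ n) (hez : 0 ≤ ez) (hcP : 0 ≤ q.cP) (ht : 0 < q.t)
    (ht1 : q.t ≤ 1) (he : 0 ≤ q.e0) (hs : 0 < s) (hr : 1 ≤ r) (Al : ℕ → Pt → Prop) {o : ℤ}
    (ho : o = 1 ∨ o = -1) {sg : ℕ → Pt → ℝ} (hsg : ∀ k m, |sg k m| ≤ 1) {κ : ℕ → ℝ}
    (hκ : ∀ g, 0 < κ g) (hκ1 : (r / q.t) ^ 2 / κ 0 ^ 6 ≤ 1) {h : ℕ}
    (hh : 6 * (q.cP + 2) ≤ h) (T : Finset ℤ) :
    ∑ t ∈ T, ∑ x0 ∈ iv K t,
      EF q o K x U Q1 Q2 (muT Al o K (cx K x) sg (q.lam s r) u κ) C x0 ≤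
      T.card * (ez * (1260000 * ((r / q.t) ^ 2 / κ 0 ^ 6) *
        ((1 + 16 * ((q.cP + 2) * q.Lm)) +
          4 * h * (1 + Real.log (1 / ((r / q.t) ^ 2 / κ 0 ^ 6))))) * (s * 8 ^ K)) := by
  have hr0 : 0 < r := by linarith
  set η : ℝ := (r / q.t) ^ 2 / κ 0 ^ 6 with hη
  have hη0 : 0 < η := div_pos (pow_pos (div_pos hr0 ht) 2) (pow_pos (hκ 0) 6)
  have hm := msk_muT (ι := ι) Al o K (cx K x) sg (q.lam s r) u κ
  have hLm : 0 ≤ q.Lm := (Real.rpow_pos_of_pos ht _).le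
  have hh1 : 1 ≤ h := by
    have : (1 : ℝ) ≤ h := by linarith
    exact_mod_cast this
  have hone : ∀ t ∈ T, ∑ x0 ∈ iv K t,
      EF q o K x U Q1 Q2 (muT Al o K (cx K x) sg (q.lam s r) u κ) C x0 ≤
      ez * (1260000 * η * ((1 + 16 * ((q.cP + 2) * q.Lm)) +
          4 * h * (1 + Real.log (1 / η)))) * (s * 8 ^ K) := by
    intro t _
    have hfew := Few.one hm (few_muT hC ht ht1 he hs hr Al ho hsg hκ {t})
    have hmin0 : 0 < min 1 (1260000 * η) := lt_min one_pos (by positivity)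
    have h1 := num_stop (stD_FDs hD hC hKn hez ht hs.le) hm hmin0 (min_le_left _ _) hfew
      (by linarith : (0 : ℝ) ≤ q.cP + 2) (sqP_qA q U K hD.B1) (sqP_qC q U K hD.B2) ho
      (ix K x.2.1) hh1 hh
    rw [sum_singleton, card_singleton] at h1
    refine h1.trans ?_
    have h2 := min_num (c := 1260000) (a := 4 * h) (b := 1 + 16 * ((q.cP + 2) * q.Lm)) hη0 hκ1
      (by norm_num) (by positivity) (by positivity)
    have h3 : (0 : ℝ) ≤ s * 8 ^ K := by positivity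
    have h4 := mul_le_mul_of_nonneg_right (mul_le_mul_of_nonneg_left h2 hez) h3
    refine le_trans (le_of_eq ?_) h4
    push_cast
    ring
  refine (sum_le_sum hone).trans (le_of_eq ?_)
  rw [sum_const, nsmul_eq_mul]

end fds

end

end Vale.Agent.P141.H743
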