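import Vale.Agent.P141.H743.StopC
import Vale.Agent.P141.H389.PathA

/-!
# P141, line (A): the stopped part of the stack, the three numbers of the raw pair

* `SqP` : packing of squares at fixed `x0`; `nC`, `nA` : the nodes over the squares of `C` (order
  `(z, x)`) and of `A` (order `(z, y)`);
* `gw_pt` : a plane sum with a condition as a sum over points;
* `num_stop` : energy at time `1`, mass on the affected squares of `C` and on the nodes over the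
  affected squares of `A`, times `k + 1`, summed over `x0`.
-/

namespace Vale.Agent.P141.H743

open Finset Matrix
open Vale.Agent.P141.PL (Pt iv ix cb cx mem_iv mem_cb card_iv card_cb ix_ix ix_zero)
open Vale.Agent.P141.PL.H315 (Tri A2)
open Vale.Agent.P141.H460 (LPack GPack QPack Lin iv_succ nsq_nonneg pack1 pack2 nA1)
open Vale.Agent.P141.H677 (kF cP)
open Vale.Agent.P141.H677.Sk (FamV)
open Vale.Agent.P141.H103 (GW QW)
open Vale.Agent.P075 (Ix)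

noncomputable section

open scoped Classical

variable {ι : Type} [Fintype ι] [DecidableEq ι]

/-- packing of the squares at fixed `x0`, local form (as in `H816.FDat`) -/
def SqP (n : ℕ) (Q : ℕ → ℤ → ℤ → ℤ → Prop) (CN : ℝ) : Prop :=
  ∀ x0 : ℤ, ∀ K' ≤ n, ∀ i m : ℤ, ∑ k ∈ range (K' + 1), ∑ i' ∈ iv (K' - k) i,
    ∑ m' ∈ iv (K' - k) m, (if Q k (ix k x0) i' m' then (4 : ℝ) ^ k else 0) ≤ CN * 4 ^ K'

/-- nodes over the squares of `C`, order `(z, x)` -/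
def nC (Q : ℕ → ℤ → ℤ → ℤ → Prop) (k : ℕ) (m : Pt) : Prop := Q k m.1 m.2.2 m.2.1

/-- nodes over the squares of `A`, order `(z, y)` -/
def nA (o : ℤ) (Q : ℕ → ℤ → ℤ → ℤ → Prop) (k : ℕ) (m : Pt) : Prop :=
  Q k m.1 m.2.2 (o - 2 - m.1 - m.2.1 - m.2.2)

theorem SqP.swap {n : ℕ} {Q : ℕ → ℤ → ℤ → ℤ → Prop} {CN : ℝ} (h : SqP n Q CN) :
    QPack n (nC Q) CN := by
  intro x0 K' hK' r s
  refine le_of_eq_of_le ?_ (h x0 K' hK' s r)
  refine sum_congr rfl fun k _ => ?_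
  rw [sum_comm]
  rfl

theorem gp_nC {n K : ℕ} {Q : ℕ → ℤ → ℤ → ℤ → Prop} {CN : ℝ} (h : SqP n Q CN) (hK : K ≤ n) :
    GPack (nC Q) K CN := fun k hk m => pack2 h.swap (hk.trans hK) m

theorem gp_nA {n K : ℕ} {Q : ℕ → ℤ → ℤ → ℤ → Prop} {CN : ℝ} (h : SqP n Q CN) (hK : K ≤ n)
    {o : ℤ} (ho : o = 1 ∨ o = -1) : GPack (nA o Q) K (3 * CN) := fun k hk m =>
  pack1 h.swap ho (hk.trans hK) m

/-! ### Plane sums as sums over points -/

/-- a reflected sum over a part of a cell -/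
theorem refl_le (d : ℕ) (R T c : ℤ) (P : ℤ → Prop) (w : ℤ → ℝ) (hw : ∀ n, 0 ≤ w n) :
    ∑ n ∈ iv d R, (if c - n ∈ iv d T then (if P n then w (c - n) else 0) else 0) ≤
      ∑ n' ∈ iv d T, (if P (c - n') then w n' else 0) := by
  rw [← sum_filter]
  have h1 : ∑ n ∈ (iv d R).filter (fun n => c - n ∈ iv d T), (if P n then w (c - n) else 0) =
      ∑ n' ∈ ((iv d R).filter (fun n => c - n ∈ iv d T)).image (fun n => c - n),
        (if P (c - n') then w n' else 0) := by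
    rw [sum_image]
    · refine sum_congr rfl fun n _ => ?_
      rw [show c - (c - n) = n by ring]
    · intro p _ q _ h
      simp only at h
      omega
  rw [h1]
  refine sum_le_sum_of_subset_of_nonneg ?_ fun n _ _ => ?_
  · intro n' hn'
    obtain ⟨n, hn, rfl⟩ := mem_image.1 hn'
    exact (mem_filter.1 hn).2
  · split_ifs
    · exact hw _
    · exact le_rfl

/-- **A plane sum with a condition as a sum over points.** -/
theorem gw_pt {N k : ℕ} (hk : k ≤ N) (r1 r2 r3 c : ℤ) (P : ℤ → ℤ → Prop)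
    (b : ℤ → ℤ → ι → ℝ) :
    GW N r2 r3 r1 k c (fun n2 n1 m =>
      if P n2 m then (QW k k b (fun _ => (1 : Matrix ι ι ℝ)) n1 m).trace else 0) ≤
    ∑ x ∈ iv N r1, ∑ z ∈ iv N r3,
      (if P (c - ix k z - ix k x) (ix k z) then b x z ⬝ᵥ b x z else 0) := by
  have htr : ∀ n1 m, (QW k k b (fun _ => (1 : Matrix ι ι ℝ)) n1 m).trace =
      ((2 : ℝ) ^ k * 2 ^ k)⁻¹ * ∑ x ∈ iv k n1, ∑ z ∈ iv k m, b x z ⬝ᵥ b x z := by
    intro n1 m
    rw [H389.tr_QW1]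
    simp only [one_mulVec]
  have hpos : ∀ n1 m, 0 ≤ (QW k k b (fun _ => (1 : Matrix ι ι ℝ)) n1 m).trace := by
    intro n1 m
    rw [htr]
    exact mul_nonneg (by positivity) (sum_nonneg fun _ _ => sum_nonneg fun _ _ => nsq_nonneg _)
  unfold H103.GW
  have h1 : ∀ m ∈ iv (N - k) r3, ∑ n ∈ iv (N - k) r2, (if c - m - n ∈ iv (N - k) r1 then
      (if P n m then (QW k k b (fun _ => (1 : Matrix ι ι ℝ)) (c - m - n) m).trace else 0)
        else 0) ≤
      ∑ n' ∈ iv (N - k) r1, (if P (c - m - n') m then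
        (QW k k b (fun _ => (1 : Matrix ι ι ℝ)) n' m).trace else 0) := fun m _ =>
    refl_le (N - k) r2 r1 (c - m) (fun n => P n m) (fun n' => (QW k k b
      (fun _ => (1 : Matrix ι ι ℝ)) n' m).trace) fun n' => hpos n' m
  refine (mul_le_mul_of_nonneg_left (sum_le_sum h1) (by positivity)).trans (le_of_eq ?_)
  rw [H460.iv_part hk r1]
  have h2 : ∀ x, ∑ z ∈ iv N r3, (if P (c - ix k z - ix k x) (ix k z) then b x z ⬝ᵥ b x z else 0) =
      ∑ m ∈ iv (N - k) r3, ∑ z ∈ iv k m,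
        (if P (c - m - ix k x) m then b x z ⬝ᵥ b x z else 0) := by
    intro x
    rw [H460.iv_part hk r3]
    refine sum_congr rfl fun m _ => sum_congr rfl fun z hz => ?_
    rw [mem_iv.1 hz]
  have h3 : ∀ n' ∈ iv (N - k) r1, ∑ x ∈ iv k n', ∑ z ∈ iv N r3,
      (if P (c - ix k z - ix k x) (ix k z) then b x z ⬝ᵥ b x z else 0) =
      ∑ m ∈ iv (N - k) r3, (if P (c - m - n') m then
        ∑ x ∈ iv k n', ∑ z ∈ iv k m, b x z ⬝ᵥ b x z else 0) := by
    intro n' _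
    rw [sum_congr rfl fun x _ => h2 x, sum_comm]
    refine sum_congr rfl fun m _ => ?_
    split_ifs with hp
    · refine sum_congr rfl fun x hx => sum_congr rfl fun z _ => ?_
      rw [mem_iv.1 hx, if_pos hp]
    · refine sum_eq_zero fun x hx => sum_eq_zero fun z _ => ?_
      rw [mem_iv.1 hx, if_neg hp]
  rw [sum_congr rfl h3, sum_comm, mul_sum]
  refine sum_congr rfl fun n' _ => ?_
  rw [mul_sum]
  refine sum_congr rfl fun m _ => ?_
  split_ifs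
  · rw [htr, ← mul_assoc]
    have : (4 : ℝ) ^ k * ((2 : ℝ) ^ k * 2 ^ k)⁻¹ = 1 := by
      rw [← mul_pow]
      norm_num
    rw [this, one_mul]
  · rw [mul_zero]

/-! ### The numbers -/

section num

variable {n K : ℕ} {ez Λ s : ℝ} {F : ℕ → Pt → ℝ} {X Z : ℤ} {a : ℤ × ℤ → ℝ}
  {v : ℤ → ℤ → ι → ℝ} {C : FamV ι} {mu : ℤ → ℕ → ℤ → ℤ → ℝ} {T : Finset ℤ} {η : ℝ}

/-- energy at time `1` -/
def E1 (K : ℕ) (r1 r3 : ℤ) (c : ℕ → ℤ → ℤ → ι → ℝ) : ℝ :=
  if 0 < K then ∑ x ∈ iv K r1, ∑ z ∈ iv K r3, c 1 z x ⬝ᵥ c 1 z x else 0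

/-- mass on the affected squares of `C`, order `(z, x)` -/
def E2 (K : ℕ) (r1 r3 x0 : ℤ) (QC : ℕ → ℤ → ℤ → ℤ → Prop) (c : ℕ → ℤ → ℤ → ι → ℝ) : ℝ :=
  ∑ k ∈ Ico 1 K, ∑ x ∈ iv K r1, ∑ z ∈ iv K r3,
    (if QC k (ix k x0) (ix k z) (ix k x) then c (k + 1) z x ⬝ᵥ c (k + 1) z x else 0)

/-- mass on the nodes over the affected squares of `A`, order `(z, y)` -/
def E3 (K : ℕ) (r1 r2 r3 x0 : ℤ) (pl : ℕ → ℤ) (QA : ℕ → ℤ → ℤ → ℤ → Prop)
    (c : ℕ → ℤ → ℤ → ι → ℝ) : ℝ :=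
  ∑ k ∈ Ico 1 K, GW K r2 r3 r1 k (pl k) (fun n2 n1 m =>
    if QA k (ix k x0) m n2 then
      (QW k k (fun x z => c (k + 1) z x) (fun _ => (1 : Matrix ι ι ℝ)) n1 m).trace else 0)

omit [DecidableEq ι] in
theorem cb_sum (K : ℕ) (t r1 r3 : ℤ) (f : Pt → ℝ) :
    ∑ y ∈ cb K (t, r1, r3), f y =
      ∑ x0 ∈ iv K t, ∑ x ∈ iv K r1, ∑ z ∈ iv K r3, f (x0, x, z) := by
  unfold PL.cb
  rw [sum_product]
  simp only [sum_product]

/-- **The three numbers, summed over `x0`.** -/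
theorem num_stop (hD : StD n ez Λ s F K X Z a v C) (hm : Msk K mu) (h0 : 0 < η) (h1 : η ≤ 1)
    (hη : Few K T X Z mu η) {QA QC : ℕ → ℤ → ℤ → ℤ → Prop} {CN : ℝ} (hCN : 0 ≤ CN)
    (hQA : SqP n QA CN) (hQC : SqP n QC CN) {o : ℤ} (ho : o = 1 ∨ o = -1) (r2 : ℤ) {h : ℕ}
    (hh : 1 ≤ h) (hPh : 6 * CN ≤ h) :
    ∑ t ∈ T, ∑ x0 ∈ iv K t, (E1 K (ix K X) (ix K Z) (Cm mu C x0) +
      E2 K (ix K X) (ix K Z) x0 QC (Cm mu C x0) +
      E3 K (ix K X) r2 (ix K Z) x0 (cP o x0) QA (Cm mu C x0)) ≤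
      ez * η * ((1 + 4 * h * (1 + Real.log (1 / η)) + 16 * (T.card * (CN * Λ))) *
        (s * 8 ^ K)) := by
  have hsub : ∀ (A : ℕ → Pt → Prop) (x0 : ℤ), ∑ k ∈ Ico 1 K, ∑ x ∈ iv K (ix K X),
      ∑ z ∈ iv K (ix K Z), (if A k (cx k (x0, x, z)) then
        Cm mu C x0 (k + 1) z x ⬝ᵥ Cm mu C x0 (k + 1) z x else 0) ≤
      ∑ k ∈ range (K + 1), ∑ x ∈ iv K (ix K X), ∑ z ∈ iv K (ix K Z),
        (if A k (cx k (x0, x, z)) then
          Cm mu C x0 (tb K 1 k) z x ⬝ᵥ Cm mu C x0 (tb K 1 k) z x else 0) := by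
    intro A x0
    refine le_of_eq_of_le (sum_congr rfl (g := fun k => ∑ x ∈ iv K (ix K X),
      ∑ z ∈ iv K (ix K Z), (if A k (cx k (x0, x, z)) then
        Cm mu C x0 (tb K 1 k) z x ⬝ᵥ Cm mu C x0 (tb K 1 k) z x else 0)) fun k hk => ?_)
      (sum_le_sum_of_subset_of_nonneg ?_ fun k _ _ => ?_)
    · obtain ⟨_, h3⟩ := mem_Ico.1 hk
      have : tb K 1 k = k + 1 := by unfold tb; omega
      rw [this]
    · intro k hk
      have := mem_Ico.1 hk
      rw [mem_range]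
      omega
    · refine sum_nonneg fun _ _ => sum_nonneg fun _ _ => ?_
      split_ifs
      · exact nsq_nonneg _
      · exact le_rfl
  have hall : ∀ (A : ℕ → Pt → Prop), ∑ t ∈ T, ∑ x0 ∈ iv K t, ∑ k ∈ range (K + 1),
      ∑ x ∈ iv K (ix K X), ∑ z ∈ iv K (ix K Z), (if A k (cx k (x0, x, z)) then
          Cm mu C x0 (tb K 1 k) z x ⬝ᵥ Cm mu C x0 (tb K 1 k) z x else 0) =
      ∑ t ∈ T, ∑ k ∈ range (K + 1), ∑ y ∈ cb K (t, ix K X, ix K Z), (if A k (cx k y) then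
        Cm mu C y.1 (tb K 1 k) y.2.2 y.2.1 ⬝ᵥ Cm mu C y.1 (tb K 1 k) y.2.2 y.2.1 else 0) := by
    intro A
    refine sum_congr rfl fun t _ => ?_
    rw [sum_comm]
    refine sum_congr rfl fun k _ => ?_
    rw [cb_sum]
  -- the three parts
  have g1 : ∑ t ∈ T, ∑ x0 ∈ iv K t, E1 K (ix K X) (ix K Z) (Cm mu C x0) ≤
      ez * (η * (s * 8 ^ K)) := by
    rcases Nat.eq_zero_or_pos K with hK | hK
    · refine le_trans (le_of_eq (sum_eq_zero fun t _ => sum_eq_zero fun x0 _ => ?_))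
        (mul_nonneg hD.hez (mul_nonneg h0.le (mul_nonneg hD.hs (by positivity))))
      unfold E1
      rw [if_neg (by omega)]
    · refine le_of_eq_of_le ?_ (en_cls hD hm h0.le hη (k := 1) hK)
      refine sum_congr rfl fun t _ => ?_
      rw [cb_sum]
      refine sum_congr rfl fun x0 _ => ?_
      unfold E1
      rw [if_pos hK]
  have g2 : ∑ t ∈ T, ∑ x0 ∈ iv K t, E2 K (ix K X) (ix K Z) x0 QC (Cm mu C x0) ≤
      ez * η * ((2 * h * (1 + Real.log (1 / η)) + T.card * (CN * (4 * Λ))) * (s * 8 ^ K)) := by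
    refine (sum_le_sum fun t _ => sum_le_sum fun x0 _ => hsub (nC QC) x0).trans ?_
    rw [hall]
    exact aff_cls hD hm h0 h1 hη (gp_nC hQC hD.hK) hCN hh (by linarith) le_rfl
  have g3 : ∑ t ∈ T, ∑ x0 ∈ iv K t, E3 K (ix K X) r2 (ix K Z) x0 (cP o x0) QA (Cm mu C x0) ≤
      ez * η * ((2 * h * (1 + Real.log (1 / η)) + T.card * (3 * CN * (4 * Λ))) *
        (s * 8 ^ K)) := by
    have e3 : ∀ x0, E3 K (ix K X) r2 (ix K Z) x0 (cP o x0) QA (Cm mu C x0) ≤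
        ∑ k ∈ Ico 1 K, ∑ x ∈ iv K (ix K X), ∑ z ∈ iv K (ix K Z),
          (if nA o QA k (cx k (x0, x, z)) then
            Cm mu C x0 (k + 1) z x ⬝ᵥ Cm mu C x0 (k + 1) z x else 0) := by
      intro x0
      unfold E3
      refine sum_le_sum fun k hk => ?_
      refine (gw_pt (by have := mem_Ico.1 hk; omega) (ix K X) r2 (ix K Z) (cP o x0 k)
        (fun n2 m => QA k (ix k x0) m n2) (fun x z => Cm mu C x0 (k + 1) z x)).trans
        (le_of_eq ?_)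
      refine sum_congr rfl fun x _ => sum_congr rfl fun z _ => ?_
      have e4 : QA k (ix k x0) (ix k z) (cP o x0 k - ix k z - ix k x) =
          nA o QA k (cx k (x0, x, z)) := by
        unfold nA H677.cP PL.cx
        simp only
        rw [show o - 2 - ix k x0 - ix k z - ix k x = o - 2 - ix k x0 - ix k x - ix k z by ring]
      rw [e4]
    refine (sum_le_sum fun t _ => sum_le_sum fun x0 _ => (e3 x0).trans (hsub (nA o QA) x0)).trans
      ?_
    rw [hall]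
    exact aff_cls hD hm h0 h1 hη (gp_nA hQA hD.hK ho) (by positivity) hh (by linarith) le_rfl
  simp only [sum_add_distrib]
  refine (add_le_add (add_le_add g1 g2) g3).trans (le_of_eq ?_)
  ring

omit [DecidableEq ι] in
theorem E1_nonneg (K : ℕ) (r1 r3 : ℤ) (c : ℕ → ℤ → ℤ → ι → ℝ) : 0 ≤ E1 K r1 r3 c := by
  unfold E1
  split_ifs
  · exact sum_nonneg fun _ _ => sum_nonneg fun _ _ => nsq_nonneg _
  · exact le_rfl

omit [DecidableEq ι] in
theorem E2_nonneg (K : ℕ) (r1 r3 x0 : ℤ) (QC : ℕ → ℤ → ℤ → ℤ → Prop)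
    (c : ℕ → ℤ → ℤ → ι → ℝ) : 0 ≤ E2 K r1 r3 x0 QC c := by
  unfold E2
  refine sum_nonneg fun _ _ => sum_nonneg fun _ _ => sum_nonneg fun _ _ => ?_
  split_ifs
  · exact nsq_nonneg _
  · exact le_rfl

theorem E3_nonneg (K : ℕ) (r1 r2 r3 x0 : ℤ) (pl : ℕ → ℤ) (QA : ℕ → ℤ → ℤ → ℤ → Prop)
    (c : ℕ → ℤ → ℤ → ι → ℝ) : 0 ≤ E3 K r1 r2 r3 x0 pl QA c := by
  unfold E3
  refine sum_nonneg fun k _ => ?_
  unfold H103.GW
  refine mul_nonneg (by positivity) (sum_nonneg fun m _ => sum_nonneg fun n _ => ?_)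
  have h1 : ∀ n1 m, 0 ≤ (QW k k (fun x z => c (k + 1) z x)
      (fun _ => (1 : Matrix ι ι ℝ)) n1 m).trace := by
    intro n1 m
    rw [H389.tr_QW1]
    simp only [one_mulVec]
    exact mul_nonneg (by positivity) (sum_nonneg fun _ _ => sum_nonneg fun _ _ => nsq_nonneg _)
  by_cases h2 : pl k - m - n ∈ iv (K - k) r1
  · rw [if_pos h2]
    beta_reduce
    by_cases h3 : QA k (ix k x0) m n
    · rw [if_pos h3]
      exact h1 _ _
    · rw [if_neg h3]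
  · rw [if_neg h2]

end num

end

end Vale.Agent.P141.H743
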