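import Vale.Agent.P141.H743.StopN
import Vale.Agent.P141.H501.StopG
import Vale.Agent.P141.H677.FDb

/-!
# P141, line (A): the stopped part of the stack, rows, caps and instances

* `cm_row` : off the affected squares a row of the masked stack does not change, or is zero at the
  later time; `cm_QW`, `cm_cap` : the Gram matrices of the masked stack;
* `msk_muT` : the stopped indicator of `RT` is a mask; `few_muT` : its size at class data;
* `stD_FDs`, `sqP_qA`, `sqP_qC` : the data of the cut families.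
-/

namespace Vale.Agent.P141.H743

open Finset Matrix
open Vale.Agent.P141.PL (Pt iv ix cb cx mem_iv mem_cb card_iv card_cb ix_ix ix_zero)
open Vale.Agent.P141.PL.H315 (Tri A2)
open Vale.Agent.P141.H48 (BSl sst)
open Vale.Agent.P141.H677 (kF cP KT GT)
open Vale.Agent.P141.H677.Sk (FamA FamV FDs)
open Vale.Agent.P141.H103 (GW QW)
open Vale.Agent.P141.H305 (Cls)
open Vale.Agent.P141.H501 (muT)
open Vale.Agent.P075 (Ix val)

noncomputable section

open scoped Classical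

variable {ι : Type} [Fintype ι] [DecidableEq ι]

/-! ### Rows and Gram matrices -/

omit [Fintype ι] [DecidableEq ι] in
/-- **A row of the masked stack off the affected squares.** -/
theorem cm_row {K : ℕ} {mu : ℤ → ℕ → ℤ → ℤ → ℝ} (hm : Msk K mu) {C : FamV ι} {x0 : ℤ} {k : ℕ}
    (hk : k < K) {x m : ℤ} (hag : ∀ z ∈ iv k m, C x0 (k + 1) z x = C x0 k z x) :
    (∀ z ∈ iv k m, Cm mu C x0 (k + 1) z x = Cm mu C x0 k z x) ∨
      (∀ z ∈ iv k m, Cm mu C x0 (k + 1) z x = 0) := by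
  have e : ∀ z ∈ iv k m, ix (k + 1) z = ix 1 m := by
    intro z hz
    rw [← mem_iv.1 hz, ix_ix]
  rcases hm.or x (k + 1) (ix (k + 1) x0) (ix 1 m) with h | h
  · right
    intro z hz
    unfold Cm
    rw [e z hz, h, zero_smul]
  · left
    intro z hz
    have h1 := hm.up k (k + 1) (Nat.le_succ k) hk x x0 z
    rw [e z hz, h] at h1
    have h2 : mu x k (ix k x0) (ix k z) = 1 := by
      rcases hm.or x k (ix k x0) (ix k z) with h3 | h3
      · rw [h3] at h1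
        linarith
      · exact h3
    unfold Cm
    rw [e z hz, h, h2, hag z hz]

/-- the Gram matrix of the masked stack -/
theorem cm_QW {mu : ℤ → ℕ → ℤ → ℤ → ℝ} (C : FamV ι) (x0 : ℤ) (a k : ℕ) (n m : ℤ) :
    QW a k (fun x z => Cm mu C x0 k z x) (fun _ => (1 : Matrix ι ι ℝ)) n m =
      QW a k (fun x z => C x0 k z x)
        (fun x => (mu x k (ix k x0) m ^ 2) • (1 : Matrix ι ι ℝ)) n m := by
  ext j j'
  unfold H103.QW
  congr 1
  refine sum_congr rfl fun x _ => ?_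
  have e1 : ix k (2 ^ k * m + val k j) = m := mem_iv.1 (H103.mem_iv_val k m j)
  have e2 : ix k (2 ^ k * m + val k j') = m := mem_iv.1 (H103.mem_iv_val k m j')
  unfold Cm
  beta_reduce
  rw [e1, e2, one_mulVec, smul_mulVec, one_mulVec, smul_dotProduct, dotProduct_smul,
    dotProduct_smul, smul_eq_mul, smul_eq_mul, smul_eq_mul]
  ring

/-- **The cap of the masked stack.** -/
theorem cm_cap {K : ℕ} {mu : ℤ → ℕ → ℤ → ℤ → ℝ} (hm : Msk K mu) {C : FamV ι} {x0 : ℤ} {a k : ℕ}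
    {n m : ℤ} {σ : ℝ} (h : (σ • (1 : Matrix (Ix k) (Ix k) ℝ) -
      QW a k (fun x z => C x0 k z x) (fun _ => (1 : Matrix ι ι ℝ)) n m).PosSemidef) :
    (σ • (1 : Matrix (Ix k) (Ix k) ℝ) -
      QW a k (fun x z => Cm mu C x0 k z x) (fun _ => (1 : Matrix ι ι ℝ)) n m).PosSemidef := by
  have h1 : (QW a k (fun x z => C x0 k z x)
      (fun x => (1 - mu x k (ix k x0) m ^ 2) • (1 : Matrix ι ι ℝ)) n m).PosSemidef := by
    refine H103.QW_psd (fun x => Matrix.PosSemidef.one.smul ?_) n m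
    rcases hm.or x k (ix k x0) m with h2 | h2 <;> rw [h2] <;> norm_num
  have h2 : QW a k (fun x z => C x0 k z x)
      (fun x => (1 - mu x k (ix k x0) m ^ 2) • (1 : Matrix ι ι ℝ)) n m =
      QW a k (fun x z => C x0 k z x) (fun _ => (1 : Matrix ι ι ℝ)) n m -
      QW a k (fun x z => C x0 k z x)
        (fun x => (mu x k (ix k x0) m ^ 2) • (1 : Matrix ι ι ℝ)) n m := by
    ext j j'
    rw [Matrix.sub_apply]
    unfold H103.QW
    rw [← mul_sub, ← sum_sub_distrib]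
    congr 1
    refine sum_congr rfl fun x _ => ?_
    rw [smul_mulVec, smul_mulVec, one_mulVec, dotProduct_smul, dotProduct_smul, smul_eq_mul,
      smul_eq_mul]
    ring
  rw [cm_QW]
  rw [h2] at h1
  have h3 := h.add h1
  have e : σ • (1 : Matrix (Ix k) (Ix k) ℝ) -
      QW a k (fun x z => C x0 k z x) (fun _ => (1 : Matrix ι ι ℝ)) n m +
      (QW a k (fun x z => C x0 k z x) (fun _ => (1 : Matrix ι ι ℝ)) n m -
      QW a k (fun x z => C x0 k z x)
        (fun x => (mu x k (ix k x0) m ^ 2) • (1 : Matrix ι ι ℝ)) n m) =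
      σ • (1 : Matrix (Ix k) (Ix k) ℝ) - QW a k (fun x z => C x0 k z x)
        (fun x => (mu x k (ix k x0) m ^ 2) • (1 : Matrix ι ι ℝ)) n m := by
    abel
  rwa [e] at h3

/-! ### The mask of the slot -/

/-- the stopped indicator is a mask -/
theorem msk_muT (Al : ℕ → Pt → Prop) (o : ℤ) (K : ℕ) (P : Pt) (sg : ℕ → Pt → ℝ) (l : ℝ)
    (u : ℤ → ℤ → ι → ℝ) (κ : ℕ → ℝ) : Msk K (muT Al o K P sg l u κ) where
  or x k a b := H501.mu_or k a b
  up _ _ hjk hk _ x0 z := H501.mu_up hjk hk x0 z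

theorem lam_row2 {q : H401.Num} {s r : ℝ} (ht : 0 < q.t) (ht1 : q.t ≤ 1) (he : 0 ≤ q.e0)
    (hr : 1 ≤ r) : r * √s ≤ q.lam s r * (r / q.t) ^ 2 := by
  have hr0 : 0 < r := by linarith
  unfold H401.Num.lam
  have h1 : (1 : ℝ) ≤ q.t ^ (-q.e0) := Real.one_le_rpow_of_pos_of_le_one_of_nonpos ht ht1
    (by linarith)
  have h2 : (1 : ℝ) ≤ r ^ q.e0 := Real.one_le_rpow hr he
  have e1 : q.t ^ (2 - q.e0) = q.t ^ 2 * q.t ^ (-q.e0) := by
    rw [show (2 : ℝ) - q.e0 = 2 + -q.e0 by ring, Real.rpow_add ht]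
    norm_num
  have e2 : q.t ^ (2 - q.e0) * √s * r ^ q.e0 * (r / q.t) ^ 2 =
      (q.t ^ (-q.e0) * r ^ q.e0 * r) * (r * √s) := by
    rw [e1]
    field_simp
  rw [e2]
  have h3 : (1 : ℝ) ≤ q.t ^ (-q.e0) * r ^ q.e0 * r := by
    have h4 : (1 : ℝ) ≤ q.t ^ (-q.e0) * r ^ q.e0 := by nlinarith
    nlinarith
  exact le_mul_of_one_le_left (by positivity) h3

/-- **The stopped points are few at class data.** -/
theorem few_muT {q : H401.Num} {K : ℕ} {x : Pt} {s r P : ℝ} {U : Tri} {g : ℤ → ℤ → ℝ}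
    {u v : ℤ → ℤ → ι → ℝ} (C : Cls K x s r P U g u v) (ht : 0 < q.t) (ht1 : q.t ≤ 1)
    (he : 0 ≤ q.e0) (hs : 0 < s) (hr : 1 ≤ r) (Al : ℕ → Pt → Prop) {o : ℤ}
    (ho : o = 1 ∨ o = -1) {sg : ℕ → Pt → ℝ} (hsg : ∀ k m, |sg k m| ≤ 1) {κ : ℕ → ℝ}
    (hκ : ∀ g, 0 < κ g) (T : Finset ℤ) :
    Few K T x.1 x.2.2 (muT Al o K (cx K x) sg (q.lam s r) u κ)
      (1260000 * ((r / q.t) ^ 2 / κ 0 ^ 6)) := by
  intro x1 hx1 z _
  have hl : 0 < q.lam s r := H401.Num.lam_pos ht hs hr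
  have h1 := H501.sum_mu_T (Al := Al) (K := K) (P := cx K x) (u := u) (κ := κ) hl ho hsg hκ T z x1
  refine h1.trans ?_
  have hmean : ∀ (p : ℤ) (f : ℤ → ℝ), ((2 : ℝ) ^ K)⁻¹ * ∑ y ∈ iv K (ix K p), f y =
      PL.H315.avg (PL.H315.iv K p) f := by
    intro p f
    unfold PL.H315.avg
    have : ((PL.H315.iv K p).card : ℝ) = 2 ^ K := by
      change ((iv K (ix K p)).card : ℝ) = 2 ^ K
      rw [card_iv]
      push_cast
      rfl
    rw [this]
    rfl
  have h2 : (GT u x1 K (cx K x).2.1).trace ≤ r * √s := by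
    rw [H677.GT_trace]
    have h3 := C.u_row x1 hx1
    rw [← hmean] at h3
    exact h3
  have h4 := h2.trans (lam_row2 (s := s) ht ht1 he hr)
  have hk : 0 < κ 0 ^ 6 := pow_pos (hκ 0) 6
  have h5 : (1260000 : ℝ) * (GT u x1 K (cx K x).2.1).trace / (q.lam s r * κ 0 ^ 6) ≤
      1260000 * ((r / q.t) ^ 2 / κ 0 ^ 6) := by
    rw [div_le_iff₀ (mul_pos hl hk)]
    have e : ∀ a b c : ℝ, b ≠ 0 → (1260000 : ℝ) * (a / b) * (c * b) = 1260000 * (c * a) := by
      intro a b c hb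
      field_simp
    rw [e _ _ _ hk.ne']
    linarith
  calc (2 : ℝ) ^ K * (1260000 * (GT u x1 K (cx K x).2.1).trace / (q.lam s r * κ 0 ^ 6))
      ≤ 2 ^ K * (1260000 * ((r / q.t) ^ 2 / κ 0 ^ 6)) :=
        mul_le_mul_of_nonneg_left h5 (by positivity)
    _ = _ := by ring

/-! ### The data of the cut families -/

section fds

variable {q : H401.Num} {n : ℕ} {ez : ℝ} {F1 F2 F3 : ℕ → Pt → ℝ} {K : ℕ} {x : Pt} {s r P : ℝ}
  {U : Tri} {g : ℤ → ℤ → ℝ} {u v : ℤ → ℤ → ι → ℝ} {A : FamA} {b C : FamV ι}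
  {Q1 Q2 Q3 : ℕ → Pt → Prop} {v' : ℤ → ℤ → ι → ℝ}

theorem stD_FDs (hD : FDs q n ez F1 F2 F3 K x s r U g u v A b C Q1 Q2 Q3 v')
    (hC : Cls K x s r P U g u v) (hK : K ≤ n) (hez : 0 ≤ ez) (ht : 0 < q.t) (hs : 0 ≤ s) :
    StD n ez q.Lm s F2 K x.1 x.2.2 U.2.1 v' C where
  hK := hK
  hez := hez
  hΛ := (Real.rpow_pos_of_pos ht _).le
  hs := hs
  bs := ⟨q.cP, Q2, hD.B2⟩
  hC x0 k z x' := hD.C_eq x0 k z x'
  hv x' hx' z hz := by
    have h1 := hC.v_le x' hx' z hz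
    rcases hD.v_or x' z with h | h
    · rw [h]
      exact h1
    · rw [h, dotProduct_zero]
      exact sq_nonneg _
  ha := hC.U_v2

/-- packing of the affected squares of `A`, order `(z, y)` -/
theorem sqP_qA (q : H401.Num) (U : Tri) (K : ℕ) {e cP : ℝ} {F : ℕ → Pt → ℝ}
    {Q : ℕ → Pt → Prop} (hB : BSl n e cP F Q) : SqP n (H401.qA q U K Q) (cP + 2) := by
  intro x0 K' hK' i m
  refine le_of_eq_of_le ?_ (H576.QD_pack (H576.Dd_sst q.Lm U.2.2 K) hB x0 hK' m i)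
  refine sum_congr rfl fun k _ => ?_
  rw [sum_comm]
  rfl

/-- packing of the affected squares of `C`, order `(z, x)` -/
theorem sqP_qC (q : H401.Num) (U : Tri) (K : ℕ) {e cP : ℝ} {F : ℕ → Pt → ℝ}
    {Q : ℕ → Pt → Prop} (hB : BSl n e cP F Q) : SqP n (H401.qC q U K Q) (cP + 2) := by
  intro x0 K' hK' i m
  refine le_of_eq_of_le ?_ (H576.QD_pack (H576.Dd_sst q.Lm U.2.1 K) hB x0 hK' m i)
  refine sum_congr rfl fun k _ => ?_
  rw [sum_comm]
  rfl

/-- agreement of the stack off its affected squares -/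
theorem agC_FDs (hD : FDs q n ez F1 F2 F3 K x s r U g u v A b C Q1 Q2 Q3 v') {k : ℕ}
    (hk : k < n) {x0 i m : ℤ} (hQ : ¬ H401.qC q U K Q2 k (ix k x0) i m) {z w : ℤ}
    (hz : z ∈ iv k i) (hw : w ∈ iv k m) : C x0 (k + 1) z w = C x0 k z w := by
  rw [hD.C_eq, hD.C_eq]
  congr 1
  exact H576.agree_kD (H576.Dd_sst q.Lm U.2.1 K) hD.B2 hk hQ hw hz

/-- **The row hypothesis of the raw pair.** -/
theorem row_FDs (hD : FDs q n ez F1 F2 F3 K x s r U g u v A b C Q1 Q2 Q3 v') (hKn : K ≤ n)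
    {mu : ℤ → ℕ → ℤ → ℤ → ℝ} (hm : Msk K mu) (x0 : ℤ) {k : ℕ} (hk : k < K) (w m : ℤ)
    (hQ : ¬ H401.qC q U K Q2 k (ix k x0) m (ix k w)) :
    (∀ z ∈ iv k m, Cm mu C x0 (k + 1) z w = Cm mu C x0 k z w) ∨
      (∀ z ∈ iv k m, Cm mu C x0 (k + 1) z w = 0) :=
  cm_row hm hk fun _ hz => agC_FDs hD (by omega) hQ hz (mem_iv.2 rfl)

end fds

end

end Vale.Agent.P141.H743
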