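import Vale.Agent.P141.H743.StopF
import Vale.Agent.P141.H970.SkelG

/-!
# P141, line (A): the stopped part of the stack, closed numbers

* `Yf η = η (1 + log (1 / η))` : `Yf_nonneg`, `Yf_le_one`, `Yf_sqrt`;
* `eta_kg` : the size of the stopped set at the caps `(r / t) ^ α`;
* `num_FDY` : the numbers of the raw pair, summed over the roots of `x0`, closed form;
* `num_kg` : the same at the caps `kg t r α`.
-/

namespace Vale.Agent.P141.H743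

open Finset Matrix
open Vale.Agent.P141.PL (Pt iv ix cb cx mem_iv mem_cb card_iv card_cb ix_ix ix_zero)
open Vale.Agent.P141.PL.H315 (Tri A2)
open Vale.Agent.P141.H48 (BSl sst)
open Vale.Agent.P141.H677 (kF cP KT GT rt)
open Vale.Agent.P141.H677.Sk (FamA FamV FDs)
open Vale.Agent.P141.H305 (Cls)
open Vale.Agent.P141.H501 (muT)
open Vale.Agent.P141.H970.SkG (kg kg_pos)

noncomputable section

open scoped Classical

variable {ι : Type} [Fintype ι] [DecidableEq ι]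

/-- `η (1 + log (1 / η))` -/
def Yf (η : ℝ) : ℝ := η * (1 + Real.log (1 / η))

theorem Yf_nonneg {η : ℝ} (h0 : 0 < η) (h1 : η ≤ 1) : 0 ≤ Yf η := by
  have hl : 0 ≤ Real.log (1 / η) := Real.log_nonneg (by rw [le_div_iff₀ h0]; linarith)
  unfold Yf
  positivity

theorem Yf_le_one {η : ℝ} (h0 : 0 < η) : Yf η ≤ 1 := by
  have h2 := Real.log_le_sub_one_of_pos (show 0 < 1 / η by positivity)
  unfold Yf
  calc η * (1 + Real.log (1 / η)) ≤ η * (1 / η) := mul_le_mul_of_nonneg_left (by linarith) h0.le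
    _ = 1 := by field_simp

/-- a square root absorbs the logarithm -/
theorem Yf_sqrt {η : ℝ} (h0 : 0 < η) : Yf η ≤ 2 * √η := by
  have hs : 0 < √η := Real.sqrt_pos.2 h0
  have h2 := Real.log_le_sub_one_of_pos (show 0 < 1 / √η by positivity)
  have h3 : Real.log (1 / η) = 2 * Real.log (1 / √η) := by
    rw [one_div, one_div, Real.log_inv, Real.log_inv, Real.log_sqrt h0.le]
    ring
  unfold Yf
  rw [h3]
  calc η * (1 + 2 * Real.log (1 / √η)) ≤ η * (2 * (1 / √η)) :=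
        mul_le_mul_of_nonneg_left (by linarith) h0.le
    _ = 2 * (√η * √η / √η) := by rw [Real.mul_self_sqrt h0.le]; ring
    _ = 2 * √η := by rw [mul_div_assoc, div_self hs.ne', mul_one]

theorem eta_kg {t r : ℝ} (ht : 0 < t) (hr : 1 ≤ r) (α : ℝ) :
    (r / t) ^ 2 / (kg t r α 0) ^ 6 = (t / r) ^ (6 * α - 2) := by
  have hr0 : 0 < r := by linarith
  have hρ : 0 < r / t := div_pos hr0 ht
  unfold H970.SkG.kg
  rw [pow_zero, mul_one, ← Real.rpow_natCast ((r / t) ^ α) 6, ← Real.rpow_mul hρ.le,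
    ← Real.rpow_natCast (r / t) 2, ← Real.rpow_sub hρ]
  have h1 : t / r = (r / t)⁻¹ := (inv_div r t).symm
  rw [h1, Real.inv_rpow hρ.le, ← Real.rpow_neg hρ.le]
  congr 1
  push_cast
  ring

theorem eta_kg_le {t r α : ℝ} (ht : 0 < t) (ht1 : t ≤ 1) (hr : 1 ≤ r) (hα : 1 ≤ α) :
    (r / t) ^ 2 / (kg t r α 0) ^ 6 ≤ 1 := by
  rw [eta_kg ht hr]
  have hr0 : 0 < r := by linarith
  refine Real.rpow_le_one (div_nonneg ht.le hr0.le) ?_ (by linarith)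
  rw [div_le_one hr0]
  linarith

theorem card_rt (M : Pt) : (rt M).card = 3 := by
  unfold H677.rt
  rw [Int.card_Icc]
  omega

section fds

variable {q : H401.Num} {n : ℕ} {ez : ℝ} {F1 F2 F3 : ℕ → Pt → ℝ} {K : ℕ} {x : Pt} {s r P : ℝ}
  {U : Tri} {g : ℤ → ℤ → ℝ} {u v : ℤ → ℤ → ι → ℝ} {A : FamA} {b C : FamV ι}
  {Q1 Q2 Q3 : ℕ → Pt → Prop} {v' : ℤ → ℤ → ι → ℝ}

/-- **The numbers of the raw pair, closed form.** -/
theorem num_FDY (hD : FDs q n ez F1 F2 F3 K x s r U g u v A b C Q1 Q2 Q3 v')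
    (hC : Cls K x s r P U g u v) (hKn : K ≤ n) (hez : 0 ≤ ez) (hcP : 0 ≤ q.cP) (ht : 0 < q.t)
    (ht1 : q.t ≤ 1) (he : 0 ≤ q.e0) (hd : 0 ≤ q.d) (hs : 0 < s) (hr : 1 ≤ r)
    (Al : ℕ → Pt → Prop) {o : ℤ} (ho : o = 1 ∨ o = -1) {sg : ℕ → Pt → ℝ}
    (hsg : ∀ k m, |sg k m| ≤ 1) {κ : ℕ → ℝ} (hκ : ∀ g, 0 < κ g)
    (hκ1 : (r / q.t) ^ 2 / κ 0 ^ 6 ≤ 1) :
    ∑ t ∈ rt (cx K x), ∑ x0 ∈ iv K t,
      EF q o K x U Q1 Q2 (muT Al o K (cx K x) sg (q.lam s r) u κ) C x0 ≤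
      3780000 * (5 + 40 * (q.cP + 2)) * (ez * (s * 8 ^ K)) * q.t ^ (-q.d) *
        Yf ((r / q.t) ^ 2 / κ 0 ^ 6) := by
  have hr0 : 0 < r := by linarith
  have hη0 : 0 < (r / q.t) ^ 2 / κ 0 ^ 6 :=
    div_pos (pow_pos (div_pos hr0 ht) 2) (pow_pos (hκ 0) 6)
  have h1 := num_FD hD hC hKn hez hcP ht ht1 he hs hr Al ho hsg hκ hκ1
    (h := ⌈6 * (q.cP + 2)⌉₊) (Nat.le_ceil _) (rt (cx K x))
  refine h1.trans ?_
  rw [card_rt]
  generalize (r / q.t) ^ 2 / κ 0 ^ 6 = η at hη0 hκ1 ⊢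
  have hl : 0 ≤ Real.log (1 / η) := Real.log_nonneg (by rw [le_div_iff₀ hη0]; linarith)
  have hLm : (1 : ℝ) ≤ q.Lm := Real.one_le_rpow_of_pos_of_le_one_of_nonpos ht ht1 (by linarith)
  have hceil : ((⌈6 * (q.cP + 2)⌉₊ : ℕ) : ℝ) ≤ 6 * (q.cP + 2) + 1 :=
    (Nat.ceil_lt_add_one (by linarith)).le
  have hc0 : (0 : ℝ) ≤ ((⌈6 * (q.cP + 2)⌉₊ : ℕ) : ℝ) := Nat.cast_nonneg _
  generalize ((⌈6 * (q.cP + 2)⌉₊ : ℕ) : ℝ) = h at hceil hc0 ⊢
  have hLd : q.t ^ (-q.d) = q.Lm := rfl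
  rw [hLd]
  generalize q.Lm = Λ at hLm ⊢
  unfold Yf
  generalize Real.log (1 / η) = l at hl ⊢
  have h2 : (1 + 16 * ((q.cP + 2) * Λ)) + 4 * h * (1 + l) ≤
      (5 + 40 * (q.cP + 2)) * Λ * (1 + l) := by
    have g1 : 1 + 16 * ((q.cP + 2) * Λ) ≤ (1 + 16 * (q.cP + 2)) * Λ := by nlinarith
    have g2 : (1 + 16 * (q.cP + 2)) * Λ ≤ (1 + 16 * (q.cP + 2)) * Λ * (1 + l) :=
      le_mul_of_one_le_right (by positivity) (by linarith)
    have g3 : 4 * h * (1 + l) ≤ 4 * (6 * (q.cP + 2) + 1) * Λ * (1 + l) := by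
      refine mul_le_mul_of_nonneg_right ?_ (by linarith)
      have g4 : 4 * h ≤ 4 * (6 * (q.cP + 2) + 1) := by linarith
      exact g4.trans (le_mul_of_one_le_right (by linarith) hLm)
    have g5 : (1 + 16 * (q.cP + 2)) * Λ * (1 + l) + 4 * (6 * (q.cP + 2) + 1) * Λ * (1 + l) =
        (5 + 40 * (q.cP + 2)) * Λ * (1 + l) := by ring
    linarith
  have h3 : 0 ≤ 3780000 * η * (ez * (s * 8 ^ K)) := by positivity
  have h4 := mul_le_mul_of_nonneg_left h2 h3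
  refine le_trans (le_of_eq ?_) (h4.trans (le_of_eq ?_))
  · push_cast
    ring
  · ring

/-- **The numbers of the raw pair at the caps `(r / t) ^ α`** (`κ = kg t r α`). -/
theorem num_kg (hD : FDs q n ez F1 F2 F3 K x s r U g u v A b C Q1 Q2 Q3 v')
    (hC : Cls K x s r P U g u v) (hKn : K ≤ n) (hez : 0 ≤ ez) (hcP : 0 ≤ q.cP) (ht : 0 < q.t)
    (ht1 : q.t ≤ 1) (he : 0 ≤ q.e0) (hd : 0 ≤ q.d) (hs : 0 < s) (hr : 1 ≤ r)
    (Al : ℕ → Pt → Prop) {o : ℤ} (ho : o = 1 ∨ o = -1) {sg : ℕ → Pt → ℝ}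
    (hsg : ∀ k m, |sg k m| ≤ 1) {α : ℝ} (hα : 1 ≤ α) :
    ∑ t ∈ rt (cx K x), ∑ x0 ∈ iv K t,
      EF q o K x U Q1 Q2 (muT Al o K (cx K x) sg (q.lam s r) u (kg q.t r α)) C x0 ≤
      3780000 * (5 + 40 * (q.cP + 2)) * (ez * (s * 8 ^ K)) * q.t ^ (-q.d) *
        (2 * (q.t / r) ^ (3 * α - 1)) := by
  have hr0 : 0 < r := by linarith
  have hη0 : 0 < (r / q.t) ^ 2 / kg q.t r α 0 ^ 6 :=
    div_pos (pow_pos (div_pos hr0 ht) 2) (pow_pos (kg_pos ht hr α 0) 6)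
  refine (num_FDY hD hC hKn hez hcP ht ht1 he hd hs hr Al ho hsg (kg_pos ht hr α)
    (eta_kg_le ht ht1 hr hα)).trans ?_
  have h1 : Yf ((r / q.t) ^ 2 / kg q.t r α 0 ^ 6) ≤ 2 * (q.t / r) ^ (3 * α - 1) := by
    refine (Yf_sqrt hη0).trans (le_of_eq ?_)
    rw [eta_kg ht hr, Real.sqrt_eq_rpow, ← Real.rpow_mul (div_pos ht hr0).le]
    congr 2
    ring
  have h2 : 0 ≤ 3780000 * (5 + 40 * (q.cP + 2)) * (ez * (s * 8 ^ K)) * q.t ^ (-q.d) := by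
    have := Real.rpow_pos_of_pos ht (-q.d)
    positivity
  exact mul_le_mul_of_nonneg_left h1 h2

end fds

end

end Vale.Agent.P141.H743
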